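import Mathlib
import Crest.Prelude.Def_LinCircuit

/-! Straight-line programs on linear forms and the cost of a matrix. -/

set_option autoImplicit false

namespace Crest.Agent.R324
open Matrix

/-- `SLP S c T`: starting from the functions in `S` (and zero), `c` gates produce all of `T`. -/
inductive SLP {J : Type} : Set (J → ℂ) → ℕ → Set (J → ℂ) → Prop
  | base {S T : Set (J → ℂ)} {c : ℕ} : T ⊆ insert 0 S → SLP S c T
  | add {S T : Set (J → ℂ)} {c : ℕ} (u v : J → ℂ) : u ∈ insert 0 S → v ∈ insert 0 S →
      SLP (insert (u + v) S) c T → SLP S (c + 1) T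
  | smul {S T : Set (J → ℂ)} {c : ℕ} (a : ℂ) (u : J → ℂ) : u ∈ insert 0 S →
      SLP (insert (a • u) S) c T → SLP S (c + 1) T

namespace SLP
variable {J : Type} {S S' T T' U : Set (J → ℂ)} {a b c c' : ℕ}

theorem ins_sub (h : S ⊆ insert 0 S') : insert 0 S ⊆ insert (0 : J → ℂ) S' :=
  Set.insert_subset (Set.mem_insert _ _) h

theorem ins_sub' (w : J → ℂ) (h : S ⊆ insert 0 S') : insert w S ⊆ insert (0 : J → ℂ) (insert w S') := by
  intro x hx
  rcases hx with rfl | hx
  · simp
  · rcases h hx with h | h
    · simp [h]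
    · simp [h]

theorem mono_left (h : SLP S c T) : ∀ {S' : Set (J → ℂ)}, S ⊆ insert 0 S' → SLP S' c T := by
  induction h with
  | base h => intro S' hS; exact base (h.trans (ins_sub hS))
  | add u v hu hv _ ih =>
    intro S' hS
    exact add u v (ins_sub hS hu) (ins_sub hS hv) (ih (ins_sub' _ hS))
  | smul a u hu _ ih =>
    intro S' hS
    exact smul a u (ins_sub hS hu) (ih (ins_sub' _ hS))

theorem mono_left' (h : SLP S c T) (hS : S ⊆ S') : SLP S' c T :=
  h.mono_left (hS.trans (Set.subset_insert _ _))

theorem mono_right (h : SLP S c T) (hT : T' ⊆ insert 0 T) : SLP S c T' := by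
  induction h with
  | base h => exact base (hT.trans (ins_sub h))
  | add u v hu hv _ ih => exact add u v hu hv (ih hT)
  | smul a u hu _ ih => exact smul a u hu (ih hT)

theorem mono_right' (h : SLP S c T) (hT : T' ⊆ T) : SLP S c T' :=
  h.mono_right (hT.trans (Set.subset_insert _ _))

theorem succ (h : SLP S c T) : SLP S (c + 1) T := by
  induction h with
  | base h => exact base h
  | add u v hu hv _ ih => exact add u v hu hv ih
  | smul a u hu _ ih => exact smul a u hu ih

theorem mono_cost (h : SLP S c T) (hc : c ≤ c') : SLP S c' T := by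
  induction hc with
  | refl => exact h
  | step _ ih => exact ih.succ

theorem keep (h : SLP S c T) : SLP S c (S ∪ T) := by
  induction h with
  | base h => exact base (Set.union_subset (Set.subset_insert _ _) h)
  | add u v hu hv _ ih =>
    exact add u v hu hv (ih.mono_right' (Set.union_subset_union_left _ (Set.subset_insert _ _)))
  | smul a u hu _ ih =>
    exact smul a u hu (ih.mono_right' (Set.union_subset_union_left _ (Set.subset_insert _ _)))

theorem trans (h : SLP S a T) (h' : SLP T b U) : SLP S (a + b) U := by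
  induction h with
  | base h => exact (h'.mono_left h).mono_cost (Nat.le_add_left _ _)
  | add u v hu hv _ ih =>
    have := add u v hu hv (ih h')
    rwa [Nat.add_right_comm] at this
  | smul a u hu _ ih =>
    have := smul a u hu (ih h')
    rwa [Nat.add_right_comm] at this

theorem seq (h : SLP S a T) (h' : SLP (S ∪ T) b U) : SLP S (a + b) U := h.keep.trans h'

theorem union (h : SLP S a T) (h' : SLP S b U) : SLP S (a + b) (T ∪ U) :=
  h.seq ((h'.mono_left' Set.subset_union_left).keep.mono_right' (by
    intro x hx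
    rcases hx with hx | hx
    · exact Or.inl (Or.inr hx)
    · exact Or.inr hx))

theorem biUnion {ι : Type*} (s : Finset ι) (c : ι → ℕ) (T : ι → Set (J → ℂ))
    (h : ∀ i ∈ s, SLP S (c i) (T i)) : SLP S (∑ i ∈ s, c i) (⋃ i ∈ s, T i) := by
  classical
  induction s using Finset.induction_on with
  | empty => exact base (by simp)
  | insert a s ha ih =>
    rw [Finset.sum_insert ha, Finset.set_biUnion_insert]
    exact (h a (Finset.mem_insert_self _ _)).union
      (ih fun i hi => h i (Finset.mem_insert_of_mem hi))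

theorem iUnion {ι : Type*} [Fintype ι] (c : ι → ℕ) (T : ι → Set (J → ℂ))
    (h : ∀ i, SLP S (c i) (T i)) : SLP S (∑ i, c i) (⋃ i, T i) := by
  simpa using biUnion Finset.univ c T fun i _ => h i

theorem lin {ι : Type*} (s : Finset ι) (a : ι → ℂ) (x : ι → J → ℂ)
    (h : ∀ k ∈ s, x k ∈ insert 0 S) : SLP S (2 * s.card) {∑ k ∈ s, a k • x k} := by
  classical
  induction s using Finset.induction_on with
  | empty => exact base (by simp)
  | insert k s hk ih =>
    rw [Finset.sum_insert hk, Finset.card_insert_of_notMem hk]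
    have h1 := ih fun i hi => h i (Finset.mem_insert_of_mem hi)
    have h2 : SLP (S ∪ {∑ k ∈ s, a k • x k}) 2 {a k • x k + ∑ k ∈ s, a k • x k} := by
      refine smul (a k) (x k) ?_ (add (a k • x k) (∑ k ∈ s, a k • x k) (by simp) (by simp)
        (base (by simp)))
      rcases h k (Finset.mem_insert_self _ _) with h | h
      · exact Or.inl h
      · exact Or.inr (Or.inl h)
    exact h1.seq h2

end SLP

/-- the set of rows of a matrix -/
def rows {K J : Type} (x : Matrix K J ℂ) : Set (J → ℂ) := Set.range fun k => x k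

theorem mem_rows {K J : Type} (x : Matrix K J ℂ) (k : K) : x k ∈ rows x := ⟨k, rfl⟩

/-- `Cost A c`: multiplication by `A` takes at most `c` gates. -/
def Cost {I K : Type} [Fintype K] (A : Matrix I K ℂ) (c : ℕ) : Prop :=
  ∀ (J : Type) (x : Matrix K J ℂ), SLP (rows x) c (rows (A * x))

/-- selection matrix: row `i` picks coordinate `f i` -/
def sel {I K : Type} [DecidableEq K] (f : I → K) : Matrix I K ℂ :=
  Matrix.of fun i k => if f i = k then 1 else 0

theorem sel_apply {I K : Type} [DecidableEq K] (f : I → K) (i : I) (k : K) :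
    sel f i k = if f i = k then 1 else 0 := rfl

theorem sel_mul {I K J : Type} [Fintype K] [DecidableEq K] (f : I → K) (x : Matrix K J ℂ) :
    sel f * x = x.submatrix f id := by
  ext i j
  simp [Matrix.mul_apply, sel_apply]

theorem sel_mulVec {I K : Type} [Fintype K] [DecidableEq K] (f : I → K) (v : K → ℂ) :
    sel f *ᵥ v = v ∘ f := by
  ext i
  simp [Matrix.mulVec, dotProduct, sel_apply]

theorem sel_id {K : Type} [DecidableEq K] : sel (id : K → K) = 1 := by
  ext i j
  simp [sel_apply, Matrix.one_apply]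

theorem sel_mul_sel {I K L : Type} [Fintype K] [DecidableEq K] [DecidableEq L] (f : I → K) (g : K → L) :
    sel f * sel g = sel (g ∘ f) := by
  rw [sel_mul]; rfl

theorem mul_row {I K J : Type} [Fintype K] (A : Matrix I K ℂ) (x : Matrix K J ℂ) (i : I) :
    (A * x) i = ∑ k, A i k • x k := by
  ext j
  simp [Matrix.mul_apply]

namespace Cost
variable {I K L : Type} [Fintype K]

theorem mono {A : Matrix I K ℂ} {c c' : ℕ} (h : Cost A c) (hc : c ≤ c') : Cost A c' :=
  fun J x => (h J x).mono_cost hc

theorem mul [Fintype L] {A : Matrix I K ℂ} {B : Matrix K L ℂ} {a b : ℕ} (hA : Cost A a)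
    (hB : Cost B b) : Cost (A * B) (a + b) := by
  intro J x
  rw [Matrix.mul_assoc, Nat.add_comm]
  exact (hB J x).trans (hA J (B * x))

theorem of_rows {I' : Type} {A : Matrix I K ℂ} {B : Matrix I' K ℂ} {c : ℕ} (hB : Cost B c)
    (h : ∀ i, (∃ i', A i = B i') ∨ A i = 0) : Cost A c := by
  intro J x
  refine (hB J x).mono_right ?_
  rintro _ ⟨i, rfl⟩
  rcases h i with ⟨i', hi⟩ | hi
  · right
    refine ⟨i', ?_⟩
    simp only [mul_row, hi]
  · left
    simp only [mul_row, hi]
    simp

theorem one [DecidableEq K] : Cost (1 : Matrix K K ℂ) 0 := by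
  intro J x
  rw [Matrix.one_mul]
  exact SLP.base (Set.subset_insert _ _)

theorem sel [DecidableEq K] (f : I → K) : Cost (sel f) 0 :=
  (one (K := K)).of_rows fun i => Or.inl ⟨f i, by ext k; simp [sel_apply, Matrix.one_apply]⟩

theorem selT [DecidableEq K] [DecidableEq I] (g : K → I) (hg : Function.Injective g) :
    Cost (R324.sel g)ᵀ 0 := by
  refine (one (K := K)).of_rows fun i => ?_
  by_cases h : ∃ k, g k = i
  · obtain ⟨k, rfl⟩ := h
    left
    refine ⟨k, ?_⟩
    ext k'
    simp [sel_apply, Matrix.one_apply, hg.eq_iff, eq_comm]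
  · right
    ext k'
    push Not at h
    simp [sel_apply, h]

theorem submatrix {I' K' : Type} [Fintype K'] {A : Matrix I K ℂ} {c : ℕ} (h : Cost A c)
    (f : I' → I) (g : K' → K) (hg : Function.Injective g) : Cost (A.submatrix f g) c := by
  classical
  have h1 := h.mul (selT g hg)
  refine h1.of_rows fun i => Or.inl ⟨f i, ?_⟩
  ext k
  simp [Matrix.mul_apply, sel_apply]

theorem triv [Fintype I] (A : Matrix I K ℂ) : Cost A (Fintype.card I * (2 * Fintype.card K)) := by
  intro J x
  have := SLP.iUnion (S := rows x) (fun _ : I => 2 * Fintype.card K)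
    (fun i => {∑ k, A i k • x k}) fun i =>
      SLP.lin Finset.univ (fun k => A i k) (fun k => x k) fun k _ => Or.inr (mem_rows x k)
  simp only [Finset.sum_const, Finset.card_univ, smul_eq_mul] at this
  refine this.mono_right' ?_
  rintro _ ⟨i, rfl⟩
  simp only [Set.mem_iUnion, Set.mem_singleton_iff]
  exact ⟨i, mul_row _ _ _⟩

theorem diag [DecidableEq K] (d : K → ℂ) : Cost (diagonal d) (Fintype.card K) := by
  intro J x
  have := SLP.iUnion (S := rows x) (fun _ : K => 1)
    (fun i => {d i • x i}) fun i =>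
      SLP.smul (d i) (x i) (Or.inr (mem_rows x i)) (SLP.base (by simp))
  simp only [Finset.sum_const, Finset.card_univ, smul_eq_mul, mul_one] at this
  refine this.mono_right' ?_
  rintro _ ⟨i, rfl⟩
  simp only [Set.mem_iUnion, Set.mem_singleton_iff]
  refine ⟨i, ?_⟩
  ext j
  simp [Matrix.diagonal_mul]

/-- block decomposition: every row of `A` is a row of some `M p` applied to selected inputs -/
theorem blocks [DecidableEq K] {P : Type} [Fintype P] {I' K' : P → Type} [∀ p, Fintype (K' p)]
    {A : Matrix I K ℂ} (M : ∀ p, Matrix (I' p) (K' p) ℂ) (f : ∀ p, K' p → K) (c : P → ℕ)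
    (hM : ∀ p, Cost (M p) (c p)) (hA : ∀ i, ∃ p k, A i = (M p * R324.sel (f p)) k) :
    Cost A (∑ p, c p) := by
  intro J x
  have := SLP.iUnion (S := rows x) c (fun p => rows (M p * R324.sel (f p) * x)) fun p =>
    (hM p).mul (Cost.sel (f p)) J x
  refine this.mono_right' ?_
  rintro _ ⟨i, rfl⟩
  obtain ⟨p, k, hk⟩ := hA i
  simp only [Set.mem_iUnion]
  refine ⟨p, k, ?_⟩
  simp only [mul_row, hk]

open Kronecker in
theorem one_kron [DecidableEq K] {R : Type} [Fintype R] [DecidableEq R] {M : Matrix I K ℂ} {c : ℕ}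
    (h : Cost M c) : Cost ((1 : Matrix R R ℂ) ⊗ₖ M) (Fintype.card R * c) := by
  have := blocks (A := (1 : Matrix R R ℂ) ⊗ₖ M) (P := R) (fun _ => M) (fun r k => (r, k)) (fun _ => c)
    (fun _ => h) (by
      rintro ⟨r, i⟩
      refine ⟨r, i, ?_⟩
      ext ⟨r', k⟩
      by_cases hr : r = r' <;> simp [Matrix.mul_apply, sel_apply, hr])
  simpa using this

open Kronecker in
theorem kron_one [DecidableEq K] {R : Type} [Fintype R] [DecidableEq R] {M : Matrix I K ℂ} {c : ℕ}
    (h : Cost M c) : Cost (M ⊗ₖ (1 : Matrix R R ℂ)) (Fintype.card R * c) := by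
  have := (h.one_kron (R := R)).submatrix (Prod.swap : I × R → R × I) (Prod.swap : K × R → R × K)
    Prod.swap_injective
  convert this using 1
  ext ⟨i, r⟩ ⟨k, r'⟩
  simp [mul_comm]

end Cost

/-! ### From programs to circuits -/

section circuit
open Crest.FourierCircuit
variable {n : ℕ}

/-- values available after a list of gates -/
def vals (gs : List LGate) (x : Fin n → ℂ) : List ℂ :=
  gs.foldl (fun avail g => avail ++ [g.value avail]) (List.ofFn x ++ [0])

theorem vals_snoc (gs : List LGate) (g : LGate) (x : Fin n → ℂ) :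
    vals (gs ++ [g]) x = vals gs x ++ [g.value (vals gs x)] := by
  simp [vals, List.foldl_append]

theorem vals_length (gs : List LGate) (x : Fin n → ℂ) : (vals gs x).length = n + 1 + gs.length := by
  induction gs using List.reverseRecOn with
  | nil => simp [vals]
  | append_singleton gs g ih => rw [vals_snoc]; simp [ih]; omega

/-- every function of `S` (and zero) sits at some available position -/
def Rep (gs : List LGate) (S : Set ((Fin n → ℂ) → ℂ)) : Prop :=
  ∀ s ∈ insert 0 S, ∃ j, j < n + 1 + gs.length ∧ ∀ x, (vals gs x).getD j 0 = s x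

theorem Rep.snoc {gs : List LGate} {S : Set ((Fin n → ℂ) → ℂ)} (h : Rep gs S) (g : LGate)
    (w : (Fin n → ℂ) → ℂ) (hw : ∀ x, g.value (vals gs x) = w x) : Rep (gs ++ [g]) (insert w S) := by
  intro s hs
  have key : s ∈ insert 0 S → ∃ j, j < n + 1 + (gs ++ [g]).length ∧
      ∀ x, (vals (gs ++ [g]) x).getD j 0 = s x := by
    intro hs
    obtain ⟨j, hj, hx⟩ := h s hs
    refine ⟨j, by simp; omega, fun x => ?_⟩
    rw [vals_snoc, List.getD_append _ _ _ _ (by rw [vals_length]; exact hj)]
    exact hx x
  rcases hs with hs | hs | hs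
  · exact key (Or.inl hs)
  · subst hs
    refine ⟨n + 1 + gs.length, by simp, fun x => ?_⟩
    rw [vals_snoc, List.getD_append_right _ _ _ _ (by rw [vals_length])]
    simp [vals_length, hw]
  · exact key (Or.inr hs)

theorem SLP.realize {S T : Set ((Fin n → ℂ) → ℂ)} {c : ℕ} (h : SLP S c T) :
    ∀ gs : List LGate, Rep gs S → ∃ gs' : List LGate, gs'.length ≤ gs.length + c ∧ Rep gs' T := by
  induction h with
  | base h => intro gs hg; exact ⟨gs, by omega, fun s hs => hg s (SLP.ins_sub h hs)⟩
  | add u v hu hv _ ih =>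
    intro gs hg
    obtain ⟨i, _, hi⟩ := hg u hu
    obtain ⟨j, _, hj⟩ := hg v hv
    obtain ⟨gs', hl, hr⟩ := ih _ (hg.snoc (LGate.add i j) (u + v) fun x => by
      simp only [LGate.value, hi, hj, Pi.add_apply])
    exact ⟨gs', by simp at hl; omega, hr⟩
  | smul a u hu _ ih =>
    intro gs hg
    obtain ⟨i, _, hi⟩ := hg u hu
    obtain ⟨gs', hl, hr⟩ := ih _ (hg.snoc (LGate.smul a i) (a • u) fun x => by
      simp only [LGate.value, hi, Pi.smul_apply, smul_eq_mul])
    exact ⟨gs', by simp at hl; omega, hr⟩

theorem circuit_of_cost (A : Matrix (Fin n) (Fin n) ℂ) (c : ℕ) (h : Cost A c) :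
    ∃ P : LinCircuit n, P.Computes A ∧ P.size ≤ c := by
  have h0 : Rep (n := n) [] (rows (Matrix.of fun k (x : Fin n → ℂ) => x k)) := by
    rintro s (rfl | ⟨k, rfl⟩)
    · refine ⟨n, by simp, fun x => ?_⟩
      simp [vals]
    · refine ⟨k, by simp, fun x => ?_⟩
      simp only [vals, List.foldl_nil]
      rw [List.getD_append _ _ _ _ (by simp)]
      simp
  obtain ⟨gs, hl, hr⟩ := (h _ _).realize [] h0
  choose out _ hout using fun k => hr _ (Or.inr (mem_rows _ k))
  refine ⟨⟨gs, out⟩, fun x k => ?_, by simpa [LinCircuit.size] using hl⟩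
  have := hout k x
  simp only [vals] at this
  simp only [LinCircuit.values, this]
  simp [Matrix.mul_apply, Matrix.mulVec, dotProduct]

end circuit

end Crest.Agent.R324
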