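import Crest.Agent.R324.Dep

/-! The Fourier matrix on `ZMod N`: inversion, Hankel form, Cooley–Tukey, coprime factorization. -/

set_option autoImplicit false
set_option linter.unusedSectionVars false
set_option linter.unusedSimpArgs false

namespace Crest.Agent.R324
open Matrix Kronecker

/-- `exp (2 π i t)` -/
noncomputable def ex (t : ℂ) : ℂ := Complex.exp (2 * Real.pi * Complex.I * t)

theorem ex_add (s t : ℂ) : ex (s + t) = ex s * ex t := by
  simp only [ex, mul_add, Complex.exp_add]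

theorem ex_int (n : ℤ) : ex n = 1 := by
  rw [ex, mul_comm]; exact Complex.exp_int_mul_two_pi_mul_I n

theorem ex_zero : ex 0 = 1 := by simp [ex]

theorem ex_sum {κ : Type} (s : Finset κ) (f : κ → ℂ) : ex (∑ i ∈ s, f i) = ∏ i ∈ s, ex (f i) := by
  simp only [ex, Finset.mul_sum, Complex.exp_sum]

theorem ex_pow (t : ℂ) (n : ℕ) : ex t ^ n = ex (n * t) := by
  rw [ex, ex, ← Complex.exp_nat_mul]; congr 1; ring

theorem ex_ne_zero (t : ℂ) : ex t ≠ 0 := Complex.exp_ne_zero _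

/-- the Fourier matrix -/
noncomputable def Fz (N : ℕ) [NeZero N] : Matrix (ZMod N) (ZMod N) ℂ :=
  Matrix.of fun j k => ZMod.stdAddChar (j * k)

section
variable {N : ℕ} [NeZero N]

theorem Fz_int (a b : ℤ) : Fz N (a : ZMod N) (b : ZMod N) = ex (a * b / N) := by
  rw [Fz, Matrix.of_apply, ← Int.cast_mul, ZMod.stdAddChar_coe, ex]
  congr 1; push_cast; ring

theorem Fz_nat (a b : ℕ) : Fz N (a : ZMod N) (b : ZMod N) = ex (a * b / N) := by
  simpa using Fz_int (N := N) a b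

theorem Fz_val (j k : ZMod N) : Fz N j k = ex (j.val * k.val / N) := by
  rw [← Fz_nat, ZMod.natCast_zmod_val, ZMod.natCast_zmod_val]

theorem Fz_mul_Fz : Fz N * Fz N = (N : ℂ) • sel (fun j : ZMod N => -j) := by
  ext j k
  simp only [Matrix.mul_apply, Fz, Matrix.of_apply, ← AddChar.map_add_eq_mul, Matrix.smul_apply,
    sel_apply]
  have := AddChar.sum_mulShift (j + k) (ZMod.isPrimitive_stdAddChar N)
  simp only [mul_add, mul_comm _ j] at this
  rw [this, ZMod.card]
  by_cases h : j + k = 0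
  · rw [if_pos h, if_pos (neg_eq_of_add_eq_zero_right h)]; simp
  · rw [if_neg h, if_neg (fun h' => h (by rw [← h']; simp))]; simp

/-- the inverse Fourier matrix -/
noncomputable def Fi (N : ℕ) [NeZero N] : Matrix (ZMod N) (ZMod N) ℂ :=
  diagonal (fun _ => (N : ℂ)⁻¹) * sel (fun j : ZMod N => -j) * Fz N

theorem Fi_mul : Fi N * Fz N = 1 := by
  have hN : (N : ℂ) ≠ 0 := by exact_mod_cast NeZero.ne N
  rw [Fi, Matrix.mul_assoc, Fz_mul_Fz]
  refine ext_mulVec fun v => ?_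
  rw [← Matrix.mulVec_mulVec, mon_mulVec]
  ext j
  simp [Matrix.smul_mulVec, sel_mulVec, hN]

theorem mul_Fi : Fz N * Fi N = 1 := mul_eq_one_comm.mp Fi_mul

theorem Fi_mulVec (v : ZMod N → ℂ) (j : ZMod N) : (Fi N *ᵥ v) j = (N : ℂ)⁻¹ * (Fz N *ᵥ v) (-j) := by
  rw [Fi, ← Matrix.mulVec_mulVec, mon_mulVec]

theorem hankel (g : ZMod N → ℂ) :
    ∃ c : ZMod N → ℂ, ∀ j k, g (j + k) = (Fz N * diagonal c * Fz N) j k := by
  refine ⟨Fi N *ᵥ g, fun j k => ?_⟩
  have h : g = Fz N *ᵥ (Fi N *ᵥ g) := by rw [Matrix.mulVec_mulVec, mul_Fi, Matrix.one_mulVec]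
  conv_lhs => rw [h]
  rw [Matrix.mul_apply]
  simp only [Matrix.mul_diagonal]
  generalize Fi N *ᵥ g = c
  simp only [Matrix.mulVec, dotProduct, Fz, Matrix.of_apply, add_mul, AddChar.map_add_eq_mul]
  refine Finset.sum_congr rfl fun x _ => ?_
  rw [mul_comm k x]; ring

theorem choose_two_add (a b : ℕ) : (a + b).choose 2 = a.choose 2 + b.choose 2 + a * b := by
  induction b with
  | zero => simp
  | succ b ih =>
    rw [← add_assoc, Nat.choose_succ_succ' (a + b) 1, Nat.choose_succ_succ' b 1, ih]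
    simp; ring

/-- chirp factorization through a cyclic group of order `N` -/
theorem chirp {X : Type} (ω : ℂ) (hω : ω ≠ 0) (ν : X → ℕ) (hν : ∀ x y, ν x + ν y < N) :
    ∃ (d : X → ℂ) (c : ZMod N → ℂ), ∀ x y,
      ω ^ (ν x * ν y) = d x * (Fz N * diagonal c * Fz N) (ν x) (ν y) * d y := by
  obtain ⟨c, hc⟩ := hankel (fun t : ZMod N => ω ^ t.val.choose 2)
  refine ⟨fun x => (ω ^ (ν x).choose 2)⁻¹, c, fun x y => ?_⟩
  rw [← hc, ← Nat.cast_add, ZMod.val_natCast, Nat.mod_eq_of_lt (hν x y), choose_two_add, pow_add,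
    pow_add]
  field_simp

end

theorem digits_bijective (a b : ℕ) [NeZero a] [NeZero b] :
    Function.Bijective fun p : ZMod a × ZMod b => ((b * p.1.val + p.2.val : ℕ) : ZMod (a * b)) := by
  rw [Fintype.bijective_iff_injective_and_card]
  refine ⟨?_, by simp⟩
  rintro ⟨x, y⟩ ⟨x', y'⟩ h
  have hb : 0 < b := NeZero.pos b
  have key : ∀ (x : ZMod a) (y : ZMod b), b * x.val + y.val < a * b := by
    intro x y
    have h1 := ZMod.val_lt x
    have h2 := ZMod.val_lt y
    nlinarith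
  have h1 := congrArg ZMod.val h
  simp only [ZMod.val_natCast, Nat.mod_eq_of_lt (key _ _)] at h1
  have h2 := congrArg (· % b) h1
  simp only [Nat.mul_add_mod, Nat.mod_eq_of_lt (ZMod.val_lt _)] at h2
  rw [h2] at h1
  have h3 : x.val = x'.val := Nat.eq_of_mul_eq_mul_left hb (by omega)
  rw [ZMod.val_injective _ h2, ZMod.val_injective _ h3]

theorem digits_bijective' (a b : ℕ) [NeZero a] [NeZero b] :
    Function.Bijective fun p : ZMod a × ZMod b => ((a * p.2.val + p.1.val : ℕ) : ZMod (a * b)) := by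
  rw [Fintype.bijective_iff_injective_and_card]
  refine ⟨?_, by simp⟩
  rintro ⟨x, y⟩ ⟨x', y'⟩ h
  have hb : 0 < a := NeZero.pos a
  have key : ∀ (x : ZMod a) (y : ZMod b), a * y.val + x.val < a * b := by
    intro x y
    have h1 := ZMod.val_lt x
    have h2 := ZMod.val_lt y
    nlinarith
  have h1 := congrArg ZMod.val h
  simp only [ZMod.val_natCast, Nat.mod_eq_of_lt (key _ _)] at h1
  have h2 := congrArg (· % a) h1
  simp only [Nat.mul_add_mod, Nat.mod_eq_of_lt (ZMod.val_lt _)] at h2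
  rw [h2] at h1
  have h3 : y.val = y'.val := Nat.eq_of_mul_eq_mul_left hb (by omega)
  rw [ZMod.val_injective _ h2, ZMod.val_injective _ h3]

theorem cooley_tukey (a b : ℕ) [NeZero a] [NeZero b] :
    ∃ (e₁ e₂ : ZMod (a * b) ≃ ZMod a × ZMod b) (tw : ZMod a × ZMod b → ℂ),
      Fz (a * b) = ((Fz a ⊗ₖ (1 : Matrix (ZMod b) (ZMod b) ℂ)) * diagonal tw *
        ((1 : Matrix (ZMod a) (ZMod a) ℂ) ⊗ₖ Fz b)).submatrix e₁ e₂ := by
  refine ⟨(Equiv.ofBijective _ (digits_bijective a b)).symm,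
    (Equiv.ofBijective _ (digits_bijective' a b)).symm,
    fun p => ex (p.1.val * p.2.val / (a * b : ℕ)), ?_⟩
  ext j k
  obtain ⟨⟨x, y⟩, rfl⟩ := (Equiv.ofBijective _ (digits_bijective a b)).surjective j
  obtain ⟨⟨s, t⟩, rfl⟩ := (Equiv.ofBijective _ (digits_bijective' a b)).surjective k
  rw [Matrix.submatrix_apply, Equiv.symm_apply_apply, Equiv.symm_apply_apply, Matrix.mul_apply]
  simp only [Matrix.mul_diagonal, Equiv.ofBijective_apply]
  rw [Fz_nat, Finset.sum_eq_single (s, y)]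
  · simp only [kroneckerMap_apply, Matrix.one_apply_eq, Fz_val, mul_one, one_mul, ← ex_add]
    rw [← mul_one (ex (_ + _)), ← ex_int (x.val * t.val : ℕ), ← ex_add]
    congr 1
    have ha : (a : ℂ) ≠ 0 := by exact_mod_cast NeZero.ne a
    have hb : (b : ℂ) ≠ 0 := by exact_mod_cast NeZero.ne b
    push_cast
    field_simp
    ring
  · rintro ⟨s', y'⟩ _ hne
    simp only [kroneckerMap_apply, Matrix.one_apply]
    by_cases h1 : y = y'
    · by_cases h2 : s' = s
      · exact absurd (Prod.ext h2 h1.symm) hne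
      · simp [h2]
    · simp [h1]
  · simp

theorem coprime_factor {κ : Type} [Fintype κ] [DecidableEq κ] [Nonempty κ] (q : κ → ℕ)
    [∀ c, NeZero (q c)] (N : ℕ) [NeZero N] (hN : N = ∏ c, q c)
    (hq : Pairwise fun c c' => (q c).Coprime (q c')) :
    ∃ (e₁ e₂ : ZMod N → ∀ c, ZMod (q c)), Function.Injective e₂ ∧
      Fz N = (piKron fun c => Fz (q c)).submatrix e₁ e₂ := by
  have hq' : Pairwise (Function.onFun IsCoprime fun c => (q c : ℤ)) :=
    fun c c' h => Nat.isCoprime_iff_coprime.mpr (hq h)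
  obtain ⟨μ, hμ⟩ := exists_sum_eq_one_iff_pairwise_coprime'.mpr hq'
  refine ⟨fun j c => ((j.val * μ c : ℤ) : ZMod (q c)), fun k c => ((k.val : ℤ) : ZMod (q c)), ?_, ?_⟩
  · intro k k' h
    have h1 : ∀ c, (q c : ℤ) ∣ (k'.val : ℤ) - k.val := fun c =>
      (ZMod.intCast_eq_intCast_iff_dvd_sub _ _ _).mp (congrFun h c)
    have h2 := Fintype.prod_dvd_of_coprime hq' h1
    rw [← Nat.cast_prod, ← hN] at h2
    have := (ZMod.intCast_eq_intCast_iff_dvd_sub _ _ _).mpr h2
    simpa using this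
  · ext j k
    rw [Fz_val]
    simp only [Matrix.submatrix_apply, piKron_apply, Fz_int, ← ex_sum]
    congr 1
    have h1 : ∀ c, ((q c : ℂ))⁻¹ = (∏ c' ∈ {c}ᶜ, (q c' : ℂ)) / N := by
      intro c
      have h2 : (N : ℂ) = q c * ∏ c' ∈ {c}ᶜ, (q c' : ℂ) := by
        rw [hN, Nat.cast_prod, Fintype.prod_eq_mul_prod_compl c]
      have h3 : (q c : ℂ) ≠ 0 := by exact_mod_cast NeZero.ne (q c)
      have h4 : (N : ℂ) ≠ 0 := by exact_mod_cast NeZero.ne N
      field_simp
      rw [h2]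
    have h5 := congrArg (Int.cast : ℤ → ℂ) hμ
    push_cast at h5 ⊢
    simp only [div_eq_mul_inv, h1]
    calc (j.val : ℂ) * k.val * (N : ℂ)⁻¹
        = j.val * k.val * (N : ℂ)⁻¹ * ∑ c, μ c * ∏ c' ∈ {c}ᶜ, (q c' : ℂ) := by rw [h5, mul_one]
      _ = _ := by
        rw [Finset.mul_sum]
        refine Finset.sum_congr rfl fun c _ => by ring

end Crest.Agent.R324
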