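import Crest.Agent.R324.Kron

/-! In-place circuits of small depth: products of monomial matrices and two-point layers. -/

set_option autoImplicit false
set_option linter.unusedSectionVars false
set_option linter.unusedSimpArgs false

namespace Crest.Agent.R324
open Matrix Kronecker

section
variable {W : Type} [Fintype W] [DecidableEq W]

/-- every row has at most one nonzero entry -/
def Mon (A : Matrix W W ℂ) : Prop := ∃ (d : W → ℂ) (σ : W → W), A = diagonal d * sel σ

/-- products of `D` two-point layers and monomial matrices -/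
def Dep : ℕ → Matrix W W ℂ → Prop
  | 0, A => Mon A
  | D + 1, A => ∃ M π A', Mon M ∧ Function.Involutive π ∧ Dep D A' ∧ A = M * lay π * A'

theorem mon_mulVec (d : W → ℂ) (σ : W → W) (v : W → ℂ) :
    (diagonal d * sel σ) *ᵥ v = fun w => d w * v (σ w) := by
  rw [← Matrix.mulVec_mulVec, sel_mulVec]
  ext w
  simp [Matrix.mulVec_diagonal]

theorem lay_mulVec (π : W → W) (v : W → ℂ) : lay π *ᵥ v = fun w => ca * v w + cb * v (π w) := by
  ext w
  simp [lay, Matrix.add_mulVec, Matrix.smul_mulVec, sel_mulVec]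

theorem ext_mulVec {I K : Type} [Fintype K] [DecidableEq K] {A B : Matrix I K ℂ}
    (h : ∀ v, A *ᵥ v = B *ᵥ v) : A = B := by
  ext i j
  simpa using congrFun (h (Pi.single j 1)) i

theorem Mon.mul {A B : Matrix W W ℂ} (hA : Mon A) (hB : Mon B) : Mon (A * B) := by
  obtain ⟨d, σ, rfl⟩ := hA
  obtain ⟨d', σ', rfl⟩ := hB
  refine ⟨fun w => d w * d' (σ w), σ' ∘ σ, ext_mulVec fun v => ?_⟩
  rw [← Matrix.mulVec_mulVec]
  simp only [mon_mulVec, mul_assoc, Function.comp]

theorem Mon.one : Mon (1 : Matrix W W ℂ) := ⟨fun _ => 1, id, by simp [sel_id]⟩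

theorem lay_id : lay (id : W → W) = 1 := by
  rw [lay, sel_id, ← add_smul, ca_add_cb, one_smul]

theorem Dep.mon_mul {D : ℕ} {M A : Matrix W W ℂ} (hM : Mon M) (hA : Dep D A) : Dep D (M * A) := by
  cases D with
  | zero => exact hM.mul hA
  | succ D =>
    obtain ⟨M', π, A', h1, h2, h3, rfl⟩ := hA
    exact ⟨M * M', π, A', hM.mul h1, h2, h3, by simp only [Matrix.mul_assoc]⟩

theorem Dep.mul {D D' : ℕ} {A B : Matrix W W ℂ} (hA : Dep D A) (hB : Dep D' B) :
    Dep (D + D') (A * B) := by
  induction D generalizing A with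
  | zero => rw [Nat.zero_add]; exact Dep.mon_mul hA hB
  | succ D ih =>
    obtain ⟨M', π, A', h1, h2, h3, rfl⟩ := hA
    rw [Nat.add_right_comm]
    exact ⟨M', π, A' * B, h1, h2, ih h3, by simp only [Matrix.mul_assoc]⟩

theorem Dep.succ {D : ℕ} {A : Matrix W W ℂ} (hA : Dep D A) : Dep (D + 1) A :=
  ⟨1, id, A, Mon.one, fun _ => rfl, hA, by simp [lay_id]⟩

theorem Dep.le {D D' : ℕ} {A : Matrix W W ℂ} (hA : Dep D A) (h : D ≤ D') : Dep D' A := by
  induction h with
  | refl => exact hA
  | step _ ih => exact ih.succ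

/-- the same notion for maps on vectors -/
def DepF (D : ℕ) (F : (W → ℂ) → W → ℂ) : Prop := ∃ A, Dep D A ∧ ∀ v, A *ᵥ v = F v

theorem Dep.depF {D : ℕ} {A : Matrix W W ℂ} (hA : Dep D A) : DepF D (A *ᵥ ·) := ⟨A, hA, fun _ => rfl⟩

theorem DepF.dep {D : ℕ} {A : Matrix W W ℂ} {F : (W → ℂ) → W → ℂ} (hA : DepF D F)
    (h : ∀ v, F v = A *ᵥ v) : Dep D A := by
  obtain ⟨A', h1, h2⟩ := hA
  rwa [ext_mulVec (A := A) (B := A') fun v => by rw [h2, h]]

theorem DepF.comp {D D' : ℕ} {F G : (W → ℂ) → W → ℂ} (hF : DepF D F) (hG : DepF D' G) :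
    DepF (D + D') fun v => F (G v) := by
  obtain ⟨A, h1, h2⟩ := hF
  obtain ⟨B, h3, h4⟩ := hG
  exact ⟨A * B, h1.mul h3, fun v => by rw [← Matrix.mulVec_mulVec, h4, h2]⟩

theorem DepF.congr {D D' : ℕ} {F G : (W → ℂ) → W → ℂ} (hF : DepF D F) (h : ∀ v, F v = G v)
    (hD : D ≤ D') : DepF D' G := by
  obtain ⟨A, h1, h2⟩ := hF
  exact ⟨A, h1.le hD, fun v => by rw [h2, h]⟩

theorem DepF.mon (d : W → ℂ) (σ : W → W) : DepF 0 fun v w => d w * v (σ w) :=
  ⟨_, ⟨d, σ, rfl⟩, mon_mulVec d σ⟩

theorem DepF.lay (π : W → W) (hπ : Function.Involutive π) :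
    DepF 1 fun v w => ca * v w + cb * v (π w) :=
  ⟨R324.lay π, ⟨1, π, 1, Mon.one, hπ, Mon.one, by simp⟩, lay_mulVec π⟩

end

theorem cost_piKron_mon {κ : Type} [Fintype κ] [DecidableEq κ] {W : κ → Type} [∀ c, Fintype (W c)]
    [∀ c, DecidableEq (W c)] (A : ∀ c, Matrix (W c) (W c) ℂ) (h : ∀ c, Mon (A c)) :
    Cost (piKron A) (∏ c, Fintype.card (W c)) := by
  choose d σ h using h
  rw [funext h, ← piKron_mul, piKron_diagonal, piKron_sel]
  simpa using (Cost.diag fun x : ∀ c, W c => ∏ c, d c (x c)).mul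
    (Cost.sel fun (x : ∀ c, W c) c => σ c (x c))

theorem cost_piKron_dep {L σ : ℕ} (hG : Good L σ) {κ : Type} [Fintype κ] [DecidableEq κ]
    (hκ : Fintype.card κ ≤ L) {W : κ → Type} [∀ c, Fintype (W c)] [∀ c, DecidableEq (W c)]
    (D : ℕ) (A : ∀ c, Matrix (W c) (W c) ℂ) (h : ∀ c, Dep D (A c)) :
    Cost (piKron A) ((∏ c, Fintype.card (W c)) * ((D + 1) * (σ + 1))) := by
  induction D generalizing A with
  | zero => exact (cost_piKron_mon A h).mono (Nat.le_mul_of_pos_right _ (by simp))
  | succ D ih =>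
    choose M π A' h1 h2 h3 h4 using h
    rw [funext h4, ← piKron_mul, ← piKron_mul]
    exact (((cost_piKron_mon M h1).mul (cost_piKron_lay hG hκ π h2)).mul (ih A' h3)).mono
      (le_of_eq (by ring))

section pext
variable {R Z W : Type} [Fintype Z] [DecidableEq Z] [Fintype W] [DecidableEq W]

/-- act on disjoint copies of `Z` inside `W` and leave the other coordinates alone -/
noncomputable def pext (e : R × Z → W) (F : R → (Z → ℂ) → Z → ℂ) (v : W → ℂ) : W → ℂ :=
  Function.extend e (fun p => F p.1 (fun z => v (e (p.1, z))) p.2) v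

theorem pext_apply {e : R × Z → W} (he : Function.Injective e) (F : R → (Z → ℂ) → Z → ℂ)
    (v : W → ℂ) (r : R) (z : Z) : pext e F v (e (r, z)) = F r (fun z => v (e (r, z))) z :=
  he.extend_apply _ _ _

theorem pext_apply' {e : R × Z → W} (F : R → (Z → ℂ) → Z → ℂ)
    (v : W → ℂ) (w : W) (hw : ¬ ∃ p, e p = w) : pext e F v w = v w :=
  Function.extend_apply' _ _ _ hw

theorem pext_comp {e : R × Z → W} (he : Function.Injective e) (F G : R → (Z → ℂ) → Z → ℂ)
    (v : W → ℂ) : pext e F (pext e G v) = pext e (fun r u => F r (G r u)) v := by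
  ext w
  by_cases hw : ∃ p, e p = w
  · obtain ⟨⟨r, z⟩, rfl⟩ := hw
    simp only [pext_apply he]
  · simp only [pext_apply' _ _ _ hw]

theorem depF_pext_mon {e : R × Z → W} (he : Function.Injective e) (A : R → Matrix Z Z ℂ)
    (h : ∀ r, Mon (A r)) : DepF 0 (pext e fun r => (A r *ᵥ ·)) := by
  choose d σ h using h
  refine (DepF.mon (Function.extend e (fun p => d p.1 p.2) fun _ => 1)
    (Function.extend e (fun p => e (p.1, σ p.1 p.2)) id)).congr (fun v => ?_) le_rfl
  ext w
  by_cases hw : ∃ p, e p = w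
  · obtain ⟨⟨r, z⟩, rfl⟩ := hw
    simp only [pext_apply he, he.extend_apply, h, mon_mulVec]
  · simp only [pext_apply' _ _ _ hw, Function.extend_apply' _ _ _ hw, one_mul, id]

theorem depF_pext_lay {e : R × Z → W} (he : Function.Injective e) (π : R → Z → Z)
    (h : ∀ r, Function.Involutive (π r)) : DepF 1 (pext e fun r => (lay (π r) *ᵥ ·)) := by
  refine (DepF.lay (Function.extend e (fun p => e (p.1, π p.1 p.2)) id) fun w => ?_).congr
    (fun v => ?_) le_rfl
  · by_cases hw : ∃ p, e p = w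
    · obtain ⟨⟨r, z⟩, rfl⟩ := hw
      simp only [he.extend_apply, h r z]
    · simp only [Function.extend_apply' _ _ _ hw, id]
  · ext w
    by_cases hw : ∃ p, e p = w
    · obtain ⟨⟨r, z⟩, rfl⟩ := hw
      simp only [pext_apply he, he.extend_apply, lay_mulVec]
    · simp only [pext_apply' _ _ _ hw, Function.extend_apply' _ _ _ hw, id]
      rw [← add_mul, ca_add_cb, one_mul]

theorem DepF.pext {e : R × Z → W} (he : Function.Injective e) {D : ℕ}
    {F : R → (Z → ℂ) → Z → ℂ} (h : ∀ r, DepF D (F r)) : DepF D (pext e F) := by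
  choose A hA hF using h
  obtain rfl : F = fun r => (A r *ᵥ ·) := by ext r v z; rw [hF]
  clear hF
  induction D generalizing A with
  | zero => exact depF_pext_mon he A hA
  | succ D ih =>
    choose M π A' h1 h2 h3 h4 using hA
    refine (((depF_pext_mon he M h1).comp (depF_pext_lay he π h2)).comp (ih A' h3)).congr
      (fun v => ?_) (by omega)
    simp only [pext_comp he, h4, Matrix.mulVec_mulVec, Matrix.mul_assoc]

end pext

theorem Dep.one_kron {R Z : Type} [Fintype R] [DecidableEq R] [Fintype Z] [DecidableEq Z] {D : ℕ}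
    {A : Matrix Z Z ℂ} (h : Dep D A) : Dep D ((1 : Matrix R R ℂ) ⊗ₖ A) := by
  refine (DepF.pext (e := id) Function.injective_id fun _ : R => h.depF).dep fun v => ?_
  ext ⟨r, z⟩
  refine (pext_apply (e := id) Function.injective_id _ v r z).trans ?_
  simp [Matrix.mulVec, dotProduct, Fintype.sum_prod_type, Matrix.one_apply]

theorem Dep.kron_one {R Z : Type} [Fintype R] [DecidableEq R] [Fintype Z] [DecidableEq Z] {D : ℕ}
    {A : Matrix Z Z ℂ} (h : Dep D A) : Dep D (A ⊗ₖ (1 : Matrix R R ℂ)) := by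
  refine (DepF.pext (e := Prod.swap) Prod.swap_injective fun _ : R => h.depF).dep fun v => ?_
  ext ⟨z, r⟩
  refine (pext_apply (e := Prod.swap) Prod.swap_injective _ v r z).trans ?_
  simp [Matrix.mulVec, dotProduct, Fintype.sum_prod_type, Matrix.one_apply]

theorem Dep.submatrix {Z W : Type} [Fintype W] [DecidableEq W] [Fintype Z] [DecidableEq Z] {D : ℕ}
    {A : Matrix Z Z ℂ} (h : Dep D A) (e₁ e₂ : W ≃ Z) : Dep D (A.submatrix e₁ e₂) := by
  have he : Function.Injective fun p : Unit × Z => e₂.symm p.2 := by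
    rintro ⟨_, a⟩ ⟨_, b⟩ h
    simpa using h
  have h1 := DepF.pext he fun _ => h.depF
  refine ((DepF.mon (fun _ => 1) fun w => e₂.symm (e₁ w)).comp h1).dep (D := 0 + D) (fun v => ?_) |>.le
    (by omega)
  ext w
  rw [one_mul, pext_apply he _ v () (e₁ w), Matrix.submatrix_mulVec_equiv]
  rfl

theorem Dep.diag {W : Type} [Fintype W] [DecidableEq W] (d : W → ℂ) : Dep 0 (diagonal d) :=
  ⟨d, id, by simp [sel_id]⟩

theorem ca_eq : ca = Complex.I * cb := by
  unfold ca cb
  linear_combination (1 / 2 : ℂ) * Complex.I_mul_I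

theorem cb_ne_zero : cb ≠ 0 := by
  intro h
  have := ca_add_cb
  rw [ca_eq, h] at this
  simp at this

/-- a shear on two coordinates -/
theorem depF_shear2 (c : ℂ) : DepF 3 fun (v : Bool → ℂ) b => if b then v true else v false + c * v true := by
  by_cases hc : c = 0
  · refine (DepF.mon (fun _ => 1) id).congr (fun v => ?_) (by omega)
    ext b; cases b <;> simp [hc]
  have hl := DepF.lay (W := Bool) (!·) (fun b => by simp)
  have hb := cb_ne_zero
  refine (((((((DepF.mon (fun b => if b then 5 * Complex.I / 3 else c) id).comp hl).comp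
    (DepF.mon (fun b => if b then 1 else 2) id)).comp hl).comp
    (DepF.mon (fun b => if b then 3 else 1) id)).comp hl).comp
    (DepF.mon (fun b => if b then 1 / (5 * Complex.I * cb) else 1 / (4 * cb * c)) id)).congr
    (fun v => ?_) (by omega)
  have hI := Complex.I_ne_zero
  have h2 : cb ^ 2 = -Complex.I / 2 := by
    unfold cb
    linear_combination (1 / 4 : ℂ) * Complex.I_mul_I
  have hI2 : Complex.I ^ 2 = -1 := Complex.I_sq
  ext b
  cases b
  · simp only [id, Bool.not_false, Bool.not_true, if_true, Bool.false_eq_true, if_false, ca_eq]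
    field_simp
    grind
  · simp only [id, Bool.not_false, Bool.not_true, if_true, Bool.false_eq_true, if_false, ca_eq]
    field_simp
    grind

end Crest.Agent.R324
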