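import Crest.Agent.R324.Gadget

/-! The design on three-element subsets and the rank bounds for its labels. -/

set_option autoImplicit false
set_option linter.unusedSectionVars false
set_option linter.unusedSimpArgs false

namespace Crest.Agent.R324
open Matrix Kronecker

section rank
variable {H : Type} [Fintype H] [DecidableEq H]

omit [DecidableEq H] in
theorem conj_tau (R : Lab H) (w : H → ZMod 2) : R * tau w * Rᵀ = tau (R *ᵥ w) := by
  simp only [tau, Matrix.mul_vecMulVec, Matrix.vecMulVec_mul, Matrix.vecMul_transpose]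

omit [DecidableEq H] in
theorem Rk.conj {B : Lab H} {r : ℕ} (h : Rk B r) (R : Lab H) : Rk (R * B * Rᵀ) r := by
  obtain ⟨κ, s, w, hs, rfl⟩ := h
  refine ⟨κ, s, fun k => R *ᵥ w k, hs, ?_⟩
  simp only [Matrix.mul_sum, Matrix.sum_mul, conj_tau]

theorem one_eq_sum_tau : (1 : Lab H) = ∑ i, tau (Pi.single i 1) := by
  ext a b
  simp only [Matrix.sum_apply, tau, vecMulVec_apply, Pi.single_apply, Matrix.one_apply]
  by_cases h : a = b
  · subst h; simp
  · rw [if_neg h]
    refine (Finset.sum_eq_zero fun i _ => ?_).symm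
    by_cases h1 : a = i
    · subst h1; simp [Ne.symm h]
    · simp [h1]

theorem rk_one : Rk (1 : Lab H) (Fintype.card H) :=
  ⟨H, Finset.univ, fun i => Pi.single i 1, by simp, one_eq_sum_tau⟩

theorem rk_one_single (j : H) : Rk (1 + tau (Pi.single j 1) : Lab H) (Fintype.card H - 1) := by
  refine ⟨H, Finset.univ.erase j, fun i => Pi.single i 1, by simp, ?_⟩
  rw [one_eq_sum_tau, ← Finset.sum_erase_add _ _ (Finset.mem_univ j), lab_cancel]

theorem rk_one_single2 (j j' : H) (h : j ≠ j') :
    Rk (1 + tau (Pi.single j 1) + tau (Pi.single j' 1) : Lab H) (Fintype.card H - 2) := by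
  refine ⟨H, (Finset.univ.erase j).erase j', fun i => Pi.single i 1, by
    rw [Finset.card_erase_of_mem (by simp [h.symm])]; simp; omega, ?_⟩
  rw [one_eq_sum_tau, ← Finset.sum_erase_add _ _ (Finset.mem_univ j), lab_cancel,
    ← Finset.sum_erase_add _ _ (show j' ∈ Finset.univ.erase j by simp [h.symm]), lab_cancel]

theorem refl_orth (u : H → ZMod 2) (hu : u ⬝ᵥ u = 0) :
    (1 + tau u : Lab H) * 1 * (1 + tau u)ᵀ = 1 := by
  have h1 : (tau u : Lab H)ᵀ = tau u := by simp [tau]
  have h2 : (tau u : Lab H) * tau u = 0 := by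
    simp [tau, Matrix.vecMulVec_mul_vecMulVec, hu]
  rw [Matrix.transpose_add, h1, Matrix.transpose_one, mul_one, mul_add, add_mul, add_mul, h2]
  simp [lab_cancel]

theorem refl_mulVec (u w : H → ZMod 2) : (1 + tau u : Lab H) *ᵥ w = w + (u ⬝ᵥ w) • u := by
  simp [tau, Matrix.add_mulVec, Matrix.vecMulVec_mulVec]

theorem vec_add_self (u : H → ZMod 2) : u + u = 0 := by
  ext i; simp [CharTwo.add_self_eq_zero]

theorem refl_single (t : H → ZMod 2) (j : H) (hj : t j = 0) :
    (1 + tau (t + Pi.single j 1) : Lab H) *ᵥ Pi.single j 1 = t := by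
  rw [refl_mulVec]
  have : (t + Pi.single j 1) ⬝ᵥ (Pi.single j 1 : H → ZMod 2) = 1 := by
    simp [add_dotProduct, hj]
  rw [this, one_smul, add_comm t, ← add_assoc, vec_add_self, zero_add]

theorem refl_iso (t : H → ZMod 2) (j : H) (ht : t ⬝ᵥ t = 1) :
    (t + Pi.single j 1) ⬝ᵥ (t + Pi.single j 1) = 0 := by
  simp only [add_dotProduct, dotProduct_add, ht, dotProduct_single, single_dotProduct,
    Pi.single_eq_same, Pi.add_apply]
  grind

theorem rk_one_tau (t : H → ZMod 2) (ht : t ⬝ᵥ t = 1) (j : H) (hj : t j = 0) :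
    Rk (1 + tau t : Lab H) (Fintype.card H - 1) := by
  have := (rk_one_single j).conj (1 + tau (t + Pi.single j 1))
  rwa [Matrix.mul_add, Matrix.add_mul, refl_orth _ (refl_iso t j ht), conj_tau,
    refl_single t j hj] at this

theorem rk_one_tau2 (t t' : H → ZMod 2) (ht : t ⬝ᵥ t = 1) (ht' : t' ⬝ᵥ t' = 1) (htt : t ⬝ᵥ t' = 0)
    (j j' : H) (hjj : j ≠ j') (hj : t j = 0) (hj' : t' j = 0) (hk' : t' j' = 0) :
    Rk (1 + tau t + tau t' : Lab H) (Fintype.card H - 2) := by
  have h1 := (rk_one_single2 j j' hjj).conj (1 + tau (t' + Pi.single j' 1))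
  have e1 : (1 + tau (t' + Pi.single j' 1) : Lab H) *ᵥ Pi.single j 1 = Pi.single j 1 := by
    rw [refl_mulVec]
    simp [add_dotProduct, hj', hjj]
  rw [Matrix.mul_add, Matrix.add_mul, Matrix.mul_add, Matrix.add_mul,
    refl_orth _ (refl_iso t' j' ht'), conj_tau, conj_tau, refl_single t' j' hk', e1] at h1
  have h2 := h1.conj (1 + tau (t + Pi.single j 1))
  have e2 : (1 + tau (t + Pi.single j 1) : Lab H) *ᵥ t' = t' := by
    rw [refl_mulVec]
    simp [add_dotProduct, hj', htt]
  rwa [Matrix.mul_add, Matrix.add_mul, Matrix.mul_add, Matrix.add_mul,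
    refl_orth _ (refl_iso t j ht), conj_tau, conj_tau, refl_single t j hj, e2] at h2

end rank

section triples
variable (H : Type) [Fintype H] [DecidableEq H]

/-- three-element subsets -/
abbrev Tri := {S : Finset H // S.card = 3}

/-- ordered pairs of distinct triples with even intersection -/
abbrev Side := {p : Tri H × Tri H // p.1 ≠ p.2 ∧ Even (p.1.1 ∩ p.2.1).card}

variable {H}

/-- indicator vector of a triple -/
def ind (S : Tri H) : H → ZMod 2 := fun i => if i ∈ S.1 then 1 else 0

theorem ind_dot (S T : Tri H) : ind S ⬝ᵥ ind T = ((S.1 ∩ T.1).card : ZMod 2) := by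
  simp only [dotProduct, ind, ite_mul, one_mul, zero_mul, ← ite_and, Finset.sum_boole]
  congr 2
  ext i; simp

theorem ind_self (S : Tri H) : ind S ⬝ᵥ ind S = 1 := by
  rw [ind_dot, Finset.inter_self, S.2]; decide

theorem inter_card_le (S T : Tri H) (h : S ≠ T) : (S.1 ∩ T.1).card ≤ 2 := by
  by_contra hc
  apply h
  have h1 : S.1 ∩ T.1 = S.1 :=
    Finset.eq_of_subset_of_card_le Finset.inter_subset_left (by rw [S.2]; omega)
  have h2 : S.1 ∩ T.1 = T.1 :=
    Finset.eq_of_subset_of_card_le Finset.inter_subset_right (by rw [T.2]; omega)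
  exact Subtype.ext (h1.symm.trans h2)

/-- the design: the matrix `(|S ∩ T| - 1) / 2` has low rank -/
noncomputable def triDesign (H : Type) [Fintype H] [DecidableEq H] :
    Design (Tri H) (Side H) (Option H) where
  src p := p.1.2
  tgt p := p.1.1
  j p := -(((p.1.1.1 ∩ p.1.2.1).card : ℂ) - 1) / 2
  R S i := i.elim (-1 / 2) fun i => if i ∈ S.1 then 1 / 2 else 0
  G i T := i.elim 1 fun i => if i ∈ T.1 then 1 else 0
  hid S T := by
    have h1 : (∑ i : Option H, (i.elim (-1 / 2) fun i => if i ∈ S.1 then (1 / 2 : ℂ) else 0) *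
        (i.elim 1 fun i => if i ∈ T.1 then (1 : ℂ) else 0)) = (((S.1 ∩ T.1).card : ℂ) - 1) / 2 := by
      rw [Fintype.sum_option]
      simp only [Option.elim, mul_ite, mul_one, mul_zero, ← ite_and]
      rw [← Finset.sum_filter, Finset.sum_const]
      have : (Finset.univ.filter fun i => i ∈ T.1 ∧ i ∈ S.1) = S.1 ∩ T.1 := by
        ext i; simp [and_comm]
      rw [this, nsmul_eq_mul]
      ring
    rw [h1]
    by_cases h : S ≠ T ∧ Even (S.1 ∩ T.1).card
    · rw [Finset.sum_eq_single (⟨(S, T), h⟩ : Side H), if_pos ⟨rfl, rfl⟩, if_neg h.1]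
      · ring
      · rintro ⟨⟨S', T'⟩, h'⟩ _ hne
        rw [if_neg]
        rintro ⟨rfl, rfl⟩
        exact hne rfl
      · simp
    · rw [Finset.sum_eq_zero, zero_add]
      · by_cases hST : S = T
        · subst hST
          rw [Finset.inter_self, S.2, if_pos rfl]; norm_num
        · have h2 := inter_card_le S T hST
          have h3 : ¬ Even (S.1 ∩ T.1).card := fun he => h ⟨hST, he⟩
          have h4 : (S.1 ∩ T.1).card = 1 := by
            rw [Nat.not_even_iff] at h3; omega
          rw [h4, if_neg hST]; norm_num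
      · rintro ⟨⟨S', T'⟩, h'⟩ _
        rw [if_neg]
        rintro ⟨rfl, rfl⟩
        exact h h'

theorem tri_r1 (hH : 8 ≤ Fintype.card H) (S : Tri H) :
    Rk (1 + tau (ind S) : Lab H) (Fintype.card H - 1) := by
  obtain ⟨j, hj⟩ : ∃ j, j ∉ S.1 := by
    by_contra hc
    push Not at hc
    have := Finset.card_le_card (show Finset.univ ⊆ S.1 from fun i _ => hc i)
    rw [S.2, Finset.card_univ] at this
    omega
  exact rk_one_tau _ (ind_self S) j (by simp [ind, hj])

theorem tri_r2 (hH : 8 ≤ Fintype.card H) (p : Side H) :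
    Rk (1 + tau (ind p.1.1) + tau (ind p.1.2) : Lab H) (Fintype.card H - 2) := by
  obtain ⟨⟨S, T⟩, hne, hev⟩ := p
  have hc : 1 < (S.1 ∪ T.1)ᶜ.card := by
    rw [Finset.card_compl]
    have := Finset.card_union_le S.1 T.1
    rw [S.2, T.2] at this
    omega
  obtain ⟨j, hj, j', hj', hjj⟩ := Finset.one_lt_card.mp hc
  simp only [Finset.mem_compl, Finset.mem_union, not_or] at hj hj'
  refine rk_one_tau2 _ _ (ind_self S) (ind_self T) ?_ j j' hjj (by simp [ind, hj]) (by simp [ind, hj])
    (by simp [ind, hj'])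
  rw [ind_dot]
  exact (ZMod.natCast_eq_zero_iff_even).mpr hev

theorem card_tri : Fintype.card (Tri H) = (Fintype.card H).choose 3 := by
  simp [Fintype.card_subtype, ← Finset.powersetCard_eq_filter, Finset.card_powersetCard]

theorem card_side_le : Fintype.card (Side H) ≤ Fintype.card (Tri H) ^ 2 := by
  refine (Fintype.card_subtype_le _).trans ?_
  rw [Fintype.card_prod, sq]

end triples

end Crest.Agent.R324
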