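import Crest.Agent.R324.Gadget

/-! The three-stage network: two data wires swap their contents and each saves one move. -/

set_option autoImplicit false

namespace Crest.Agent.R324
open Matrix Kronecker

variable {𝒯 Sd Ce : Type} [Fintype 𝒯] [Fintype Sd] [Fintype Ce] [DecidableEq 𝒯]
variable {H M : Type} [AddCommGroup M] [Module ℂ M]

/-- triple tensor product of labels -/
def k3 (A B C : Lab H) : Lab (H × H × H) := A ⊗ₖ (B ⊗ₖ C)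

theorem Rk.k3 {A B C : Lab H} {a b c : ℕ} (ha : Rk A a) (hb : Rk B b) (hc : Rk C c) :
    Rk (k3 A B C) (a * (b * c)) := ha.kron (hb.kron hc)

theorem Rk.of_eq {ι : Type} {A B : Lab ι} {a b : ℕ} (ha : Rk A a) (h : B = A) (hab : a ≤ b) :
    Rk B b := h ▸ ha.mono hab

/-- proves an identity between labels entrywise -/
macro "lab3" : tactic => `(tactic| (
  ext ⟨i1, i2, i3⟩ ⟨j1, j2, j3⟩
  simp only [k3, Matrix.add_apply, Matrix.zero_apply, Matrix.kroneckerMap_apply]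
  grind))

theorem network (d : Design 𝒯 Sd Ce) (E : Lab H) (θ : 𝒯 → Lab H) (k : ℕ)
    (r0 : ∀ t, Rk (θ t) 1) (rE : Rk E (k + 2)) (r1 : ∀ t, Rk (E + θ t) (k + 1))
    (r2 : ∀ p, Rk (E + θ (d.tgt p) + θ (d.src p)) k)
    {S : Set (Lab (H × H × H) × M)} (x y : 𝒯 → 𝒯 → 𝒯 → M) (a1 a2 a3 : 𝒯 × 𝒯 → Sd → M)
    (hX : ∀ s t u, (k3 (θ s) (θ t) (θ u), x s t u) ∈ S) (hY : ∀ s t u, ((0 : Lab _), y s t u) ∈ S)
    (hA1 : ∀ b p, ((0 : Lab _), a1 b p) ∈ S) (hA2 : ∀ b p, ((0 : Lab _), a2 b p) ∈ S)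
    (hA3 : ∀ b p, ((0 : Lab _), a3 b p) ∈ S) :
    ∃ T, Net S (2 * Fintype.card 𝒯 ^ 3 * ((k + 1) * ((k + 2) ^ 2 + (k + 2) + 1)) +
        3 * Fintype.card 𝒯 ^ 2 * (Fintype.card Ce * (k + 2) + Fintype.card Sd * (k + 2) ^ 3)) T ∧
      (∀ q ∈ S, q ∈ T) ∧ (∀ s t u, (k3 (θ s) (θ t) (θ u) + k3 E E E, x s t u) ∈ T) ∧
      (∀ s t u, (k3 E E E, y s t u) ∈ T) ∧ (∀ b p, (k3 E E E, a1 b p) ∈ T) ∧
      (∀ b p, (k3 E E E, a2 b p) ∈ T) ∧ (∀ b p, (k3 E E E, a3 b p) ∈ T) := by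
  -- stage 1
  obtain ⟨T1, n1, s1, x1, y1, m1⟩ := gadget_fwd d (Net.refl S) (Bx := 𝒯 × 𝒯) (fun _ => 0)
    (fun b => k3 E (θ b.1) (θ b.2)) (k3 E E E) (fun b t => k3 (θ t) (θ b.1) (θ b.2))
    (fun b t => x t b.1 b.2) (fun b t => y t b.1 b.2) a1 k 0
    ((k + 2) * ((k + 1) * (k + 2)) + (k + 2) * (1 * (k + 1)))
    (fun b t => by rw [zero_add]; exact hX _ _ _) (fun b t => hY _ _ _) hA1 (fun _ => Rk.zero)
    (fun b t => ((r0 _).k3 (r0 _) (r0 _)))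
    (fun b => (rE.k3 (r0 b.1) (r0 b.2)).mono (by simp))
    (fun b t => ((r1 t).k3 (r0 b.1) (r0 b.2)).of_eq (by lab3) (by simp))
    (fun b p => ((r2 p).k3 (r0 b.1) (r0 b.2)).of_eq (by lab3) (by simp))
    (fun b => ((rE.k3 (r1 b.1) rE).add (rE.k3 (r0 b.1) (r1 b.2))).of_eq (by lab3) le_rfl)
  -- transition to stage 2; now `b = (t1, t3)` and `t = t2`
  obtain ⟨T2, n2, s2, x2⟩ := n1.mv (κ := 𝒯 × 𝒯) (κ' := 𝒯) (fun b t => 0 + k3 E (θ t) (θ b.2))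
    (fun b t => k3 (E + θ b.1) E (θ b.2) + k3 (θ b.1) (θ t) (θ b.2))
    (fun b t => k3 (E + θ b.1) (E + θ t) (θ b.2)) (fun b t => x b.1 t b.2) ((k + 1) * ((k + 1) * 1))
    (fun b t => x1 (t, b.2) b.1) (fun b t => (r1 _).k3 (r1 _) (r0 _)) (fun b t => by lab3)
  obtain ⟨T3, n3, s3, y3⟩ := n2.mv (κ := 𝒯 × 𝒯) (κ' := 𝒯)
    (fun b t => 0 + k3 E (θ t) (θ b.2) + k3 (θ b.1) (θ t) (θ b.2))
    (fun b t => k3 (E + θ b.1) E (θ b.2))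
    (fun b t => k3 (E + θ b.1) (E + θ t) (θ b.2)) (fun b t => y b.1 t b.2 + x b.1 t b.2)
    ((k + 1) * ((k + 1) * 1))
    (fun b t => s2 _ (y1 (t, b.2) b.1)) (fun b t => (r1 _).k3 (r1 _) (r0 _)) (fun b t => by lab3)
  obtain ⟨T4, n4, s4, y4⟩ := n3.ln (κ := 𝒯 × 𝒯) (κ' := 𝒯) (fun b t => k3 (E + θ b.1) E (θ b.2))
    (fun b t => -(y b.1 t b.2 + x b.1 t b.2))
    (fun b t => Submodule.neg_mem _ (Av.of_mem (y3 b t)))
  -- stage 2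
  obtain ⟨T5, n5, s5, y5, x5, m5⟩ := gadget_bwd d n4 (Bx := 𝒯 × 𝒯)
    (fun b => k3 (E + θ b.1) E (θ b.2))
    (fun b => k3 (θ b.1) E (θ b.2)) (k3 E E E) (fun b t => k3 (θ b.1) (θ t) (θ b.2))
    (fun b t => -(y b.1 t b.2 + x b.1 t b.2)) (fun b t => x b.1 t b.2) a2 k
    ((k + 1) * ((k + 2) * 1)) ((k + 2) * ((k + 2) * (k + 1)))
    y4 (fun b t => s4 _ (s3 _ (x2 b t))) (fun b p => s4 _ (s3 _ (s2 _ (s1 _ (hA2 b p)))))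
    (fun b => (r1 _).k3 rE (r0 _))
    (fun b t => ((r0 _).k3 (r0 _) (r0 _)))
    (fun b => ((r0 b.1).k3 rE (r0 b.2)).mono (by simp))
    (fun b t => ((r0 b.1).k3 (r1 t) (r0 b.2)).of_eq (by lab3) (by simp))
    (fun b p => ((r0 b.1).k3 (r2 p) (r0 b.2)).of_eq (by lab3) (by simp))
    (fun b => (rE.k3 rE (r1 b.2)).of_eq (by lab3) le_rfl)
  -- transition to stage 3; now `b = (t1, t2)` and `t = t3`
  obtain ⟨T6, n6, s6, x6⟩ := n5.mv (κ := 𝒯 × 𝒯) (κ' := 𝒯)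
    (fun b t => k3 (E + θ b.1) E (θ t) + k3 (θ b.1) E (θ t))
    (fun b t => k3 E E E + k3 (θ b.1) (θ b.2) E + k3 (θ b.1) (θ b.2) (θ t))
    (fun b t => k3 (E + θ b.1) E (E + θ t) + k3 (θ b.1) (E + θ b.2) (E + θ t))
    (fun b t => x b.1 b.2 t + -(y b.1 b.2 t + x b.1 b.2 t))
    ((k + 1) * ((k + 2) * (k + 1)) + 1 * ((k + 1) * (k + 1)))
    (fun b t => x5 (b.1, t) b.2)
    (fun b t => ((r1 _).k3 rE (r1 _)).add ((r0 _).k3 (r1 _) (r1 _))) (fun b t => by lab3)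
  obtain ⟨T7, n7, s7, y7⟩ := n6.mv (κ := 𝒯 × 𝒯) (κ' := 𝒯)
    (fun b t => k3 (E + θ b.1) E (θ t) + k3 (θ b.1) E (θ t) + k3 (θ b.1) (θ b.2) (θ t))
    (fun b t => k3 E E E + k3 (θ b.1) (θ b.2) E)
    (fun b t => k3 (E + θ b.1) E (E + θ t) + k3 (θ b.1) (E + θ b.2) (E + θ t))
    (fun b t => -(y b.1 b.2 t + x b.1 b.2 t))
    ((k + 1) * ((k + 2) * (k + 1)) + 1 * ((k + 1) * (k + 1)))
    (fun b t => s6 _ (y5 (b.1, t) b.2))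
    (fun b t => ((r1 _).k3 rE (r1 _)).add ((r0 _).k3 (r1 _) (r1 _))) (fun b t => by lab3)
  obtain ⟨T8, n8, s8, x8⟩ := n7.ln (κ := 𝒯 × 𝒯) (κ' := 𝒯)
    (fun b t => k3 E E E + k3 (θ b.1) (θ b.2) E + k3 (θ b.1) (θ b.2) (θ t))
    (fun b t => y b.1 b.2 t)
    (fun b t => by
      have e : y b.1 b.2 t = -(x b.1 b.2 t + -(y b.1 b.2 t + x b.1 b.2 t)) := by abel
      rw [e]
      exact Submodule.neg_mem _ (Av.of_mem (s7 _ (x6 b t))))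
  -- stage 3
  obtain ⟨T9, n9, s9, x9, y9, m9⟩ := gadget_fwd d n8 (Bx := 𝒯 × 𝒯)
    (fun b => k3 E E E + k3 (θ b.1) (θ b.2) E)
    (fun b => k3 (θ b.1) (θ b.2) E) (k3 E E E) (fun b t => k3 (θ b.1) (θ b.2) (θ t))
    (fun b t => y b.1 b.2 t) (fun b t => -(y b.1 b.2 t + x b.1 b.2 t)) a3 k
    ((k + 1) * ((k + 2) * (k + 2)) + 1 * ((k + 1) * (k + 2))) 0
    x8 (fun b t => s8 _ (y7 b t))
    (fun b p => s8 _ (s7 _ (s6 _ (s5 _ (s4 _ (s3 _ (s2 _ (s1 _ (hA3 b p)))))))))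
    (fun b => (((r1 b.1).k3 rE rE).add ((r0 b.1).k3 (r1 b.2) rE)).of_eq (by lab3) le_rfl)
    (fun b t => ((r0 _).k3 (r0 _) (r0 _)))
    (fun b => ((r0 b.1).k3 (r0 b.2) rE).mono (by simp))
    (fun b t => ((r0 b.1).k3 (r0 b.2) (r1 t)).of_eq (by lab3) (by simp))
    (fun b p => ((r0 b.1).k3 (r0 b.2) (r2 p)).of_eq (by lab3) (by simp))
    (fun b => Rk.zero.of_eq (by lab3) le_rfl)
  obtain ⟨T10, n10, s10, y10⟩ := n9.ln (κ := 𝒯 × 𝒯) (κ' := 𝒯)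
    (fun b t => k3 E E E + k3 (θ b.1) (θ b.2) E + k3 (θ b.1) (θ b.2) E + k3 (θ b.1) (θ b.2) (θ t))
    (fun b t => x b.1 b.2 t)
    (fun b t => by
      have e : x b.1 b.2 t = -(-(y b.1 b.2 t + x b.1 b.2 t) + y b.1 b.2 t) := by abel
      rw [e]
      exact Submodule.neg_mem _ (Av.of_mem (y9 b t)))
  refine ⟨T10, n10.mono (le_of_eq ?_) subset_rfl, fun q hq => ?_, fun s t u => ?_, fun s t u => ?_,
    fun b p => ?_, fun b p => ?_, fun b p => s10 _ (m9 b p)⟩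
  · rw [Fintype.card_prod]; ring
  · exact s10 _ (s9 _ (s8 _ (s7 _ (s6 _ (s5 _ (s4 _ (s3 _ (s2 _ (s1 _ hq)))))))))
  · have := y10 (s, t) u
    rwa [lab_cancel, add_comm] at this
  · have := s10 _ (x9 (s, t) u)
    rwa [lab_cancel] at this
  · exact s10 _ (s9 _ (s8 _ (s7 _ (s6 _ (s5 _ (s4 _ (s3 _ (s2 _ (m1 b p)))))))))
  · exact s10 _ (s9 _ (s8 _ (s7 _ (s6 _ (m5 b p)))))

end Crest.Agent.R324
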