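import Crest.Agent.R324.Frames
import Crest.Agent.R324.Network
import Crest.Agent.R324.Design

/-! The recursion: tensor powers of the basic two by two matrix cost `O(L ^ θ)` per coordinate. -/

set_option autoImplicit false
set_option linter.unusedSectionVars false
set_option linter.unusedSimpArgs false

namespace Crest.Agent.R324
open Matrix Kronecker

theorem Cost.rebatch {I K R B W : Type} [Fintype K] [DecidableEq K] [Fintype R] [DecidableEq R]
    [Fintype B] [DecidableEq B] [Fintype W] [DecidableEq W] {F : Matrix I K ℂ} {c : ℕ}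
    (h : Cost ((1 : Matrix W W ℂ) ⊗ₖ F) c) (e : R → B × W) (he : Function.Injective e) :
    Cost ((1 : Matrix R R ℂ) ⊗ₖ F) (Fintype.card B * c) := by
  have := (h.one_kron (R := B)).submatrix (fun p : R × I => ((e p.1).1, (e p.1).2, p.2))
    (fun p : R × K => ((e p.1).1, (e p.1).2, p.2)) (by
      rintro ⟨a, b⟩ ⟨a', b'⟩ h
      simp only [Prod.mk.injEq] at h
      rw [he (Prod.ext h.1 h.2.1), h.2.2])
  convert this using 1
  ext ⟨a, i⟩ ⟨a', k⟩
  simp only [kroneckerMap_apply, submatrix_apply, Matrix.one_apply, ← he.eq_iff, Prod.ext_iff]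
  by_cases h1 : (e a).1 = (e a').1 <;> by_cases h2 : (e a).2 = (e a').2 <;> simp [h1, h2]

/-- the wires of the network -/
abbrev Wires (𝒯 Sd Id : Type) :=
  (𝒯 × 𝒯 × 𝒯) ⊕ (𝒯 × 𝒯 × 𝒯) ⊕ (Fin 3 × (𝒯 × 𝒯) × Sd) ⊕ Id

theorem net_batch {𝒯 Sd Ce H Id : Type} [Fintype 𝒯] [Fintype Sd] [Fintype Ce] [DecidableEq 𝒯]
    [Fintype H] [DecidableEq H] [Fintype Id] [DecidableEq (Wires 𝒯 Sd Id)]
    (d : Design 𝒯 Sd Ce) (θ : 𝒯 → Lab H) (k : ℕ)
    (r0 : ∀ t, Rk (θ t) 1) (rE : Rk (1 : Lab H) (k + 2)) (r1 : ∀ t, Rk (1 + θ t) (k + 1))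
    (r2 : ∀ p, Rk (1 + θ (d.tgt p) + θ (d.src p)) k) :
    ∃ γ : ℕ, ∀ (L σ : ℕ), Good L σ → ∀ (Λ : Type) [Fintype Λ] [DecidableEq Λ], Fintype.card Λ ≤ L →
      Cost ((1 : Matrix (Wires 𝒯 Sd Id) (Wires 𝒯 Sd Id) ℂ) ⊗ₖ piKron fun _ : Λ => Cpow (H × H × H))
        (((2 * Fintype.card 𝒯 ^ 3 * ((k + 1) * ((k + 2) ^ 2 + (k + 2) + 1)) +
          3 * Fintype.card 𝒯 ^ 2 * (Fintype.card Ce * (k + 2) + Fintype.card Sd * (k + 2) ^ 3) +
          Fintype.card Id * (k + 2) ^ 3) * σ + γ) * Fintype.card (Λ → H × H × H → ZMod 2)) := by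
  let start : Wires 𝒯 Sd Id → Lab (H × H × H) :=
    Sum.elim (fun a => k3 (θ a.1) (θ a.2.1) (θ a.2.2)) fun _ => 0
  let z : Wires 𝒯 Sd Id → Wires 𝒯 Sd Id → ℂ := fun w => Pi.single w 1
  obtain ⟨T, n, s, hx, hy, h1, h2, h3⟩ := network d 1 θ k r0 rE r1 r2
    (S := Set.range fun w => (start w, z w))
    (fun s t u => z (.inl (s, t, u))) (fun s t u => z (.inr (.inl (s, t, u))))
    (fun b p => z (.inr (.inr (.inl (0, b, p))))) (fun b p => z (.inr (.inr (.inl (1, b, p)))))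
    (fun b p => z (.inr (.inr (.inl (2, b, p)))))
    (fun s t u => ⟨.inl (s, t, u), rfl⟩) (fun s t u => ⟨.inr (.inl (s, t, u)), rfl⟩)
    (fun b p => ⟨.inr (.inr (.inl (0, b, p))), rfl⟩) (fun b p => ⟨.inr (.inr (.inl (1, b, p))), rfl⟩)
    (fun b p => ⟨.inr (.inr (.inl (2, b, p))), rfl⟩)
  obtain ⟨T', n', s', m'⟩ := n.mv (κ := Unit) (κ' := Id) (fun _ _ => 0) (fun _ _ => k3 1 1 1)
    (fun _ _ => k3 1 1 1) (fun _ i => z (.inr (.inr (.inr i)))) ((k + 2) * ((k + 2) * (k + 2)))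
    (fun _ i => s _ ⟨.inr (.inr (.inr i)), rfl⟩) (fun _ _ => rE.k3 rE rE) (fun _ _ => zero_add _)
  have e1 : k3 (1 : Lab H) 1 1 = 1 := by simp [k3]
  rw [e1] at hx hy h1 h2 h3 m'
  refine batch_of_net start ?_ (n'.mono (le_of_eq (by rw [Fintype.card_unit]; ring)) subset_rfl) ?_ ?_
  · rintro (a | a)
    · exact ((r0 _).k3 (r0 _) (r0 _)).isSymm
    · exact Matrix.isSymm_zero
  · rintro _ ⟨w, rfl⟩
    exact ⟨w, rfl⟩
  · rintro (⟨a, b, c⟩ | ⟨a, b, c⟩ | ⟨j, b, p⟩ | i)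
    · exact s' _ (hx a b c)
    · simpa [start] using s' _ (hy a b c)
    · fin_cases j
      · simpa [start] using s' _ (h1 b p)
      · simpa [start] using s' _ (h2 b p)
      · simpa [start] using s' _ (h3 b p)
    · simpa [start] using m' () i

theorem good_step {ι Wt : Type} [Fintype ι] [DecidableEq ι] [Fintype Wt] [DecidableEq Wt] {e0 r γ : ℕ}
    (hW : Fintype.card Wt = 2 ^ e0) (hm : 0 < Fintype.card ι)
    (hb : ∀ (L σ : ℕ), Good L σ → ∀ (Λ : Type) [Fintype Λ] [DecidableEq Λ], Fintype.card Λ ≤ L →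
      Cost ((1 : Matrix Wt Wt ℂ) ⊗ₖ piKron fun _ : Λ => Cpow ι)
        ((r * σ + γ) * Fintype.card (Λ → ι → ZMod 2))) :
    ∃ c : ℕ, ∀ L σ : ℕ, Good L σ → Good (Fintype.card ι * L) (r * σ / 2 ^ e0 + c) := by
  set m := Fintype.card ι with hmdef
  refine ⟨1 + γ + 2 * 2 ^ (m + e0), fun L σ hG κ _ _ hκ => ?_⟩
  by_cases hj : Fintype.card κ < e0
  · refine (good_triv (m + e0) κ (by omega)).mono (Nat.mul_le_mul_left _ ?_)
    exact (Nat.le_add_left _ _).trans (Nat.le_add_left _ _)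
  obtain ⟨j, hj⟩ : ∃ j, Fintype.card κ = j + e0 := ⟨Fintype.card κ - e0, by omega⟩
  have hl : j / m ≤ L := by
    refine Nat.div_le_of_le_mul ?_
    omega
  have hjm : j % m < m := Nat.mod_lt _ hm
  have hdiv : j % m + j / m * m = j := Nat.mod_add_div' j m
  obtain ⟨e⟩ : Nonempty (Fin (j % m + e0) ⊕ (Fin (j / m) × ι) ≃ κ) :=
    Fintype.card_eq.mp (by simp [← hmdef]; omega)
  obtain ⟨e'⟩ : Nonempty ((Fin (j % m + e0) → ZMod 2) ≃ Fin (2 ^ (j % m)) × Wt) :=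
    Fintype.card_eq.mp (by simp [hW, pow_add])
  have h1 := (hb L σ hG (Fin (j / m)) (by simpa using hl)).rebatch e' e'.injective
  have h2 := (good_triv (m + e0) (Fin (j % m + e0)) (by simp; omega)).kron_one
    (R := Fin (j / m) → ι → ZMod 2)
  have h3 := h2.mul h1
  rw [← Matrix.mul_kronecker_mul, Matrix.mul_one, Matrix.one_mul] at h3
  have h4 := h3.submatrix
    (fun x : κ → ZMod 2 => (fun a => x (e (.inl a)), fun l i => x (e (.inr (l, i)))))
    (fun x : κ → ZMod 2 => (fun a => x (e (.inl a)), fun l i => x (e (.inr (l, i))))) (by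
      intro x y h
      simp only [Prod.mk.injEq, funext_iff] at h
      funext c
      obtain ⟨c, rfl⟩ := e.surjective c
      rcases c with a | ⟨l, i⟩
      · exact h.1 a
      · exact h.2 l i)
  convert h4.mono ?_ using 1
  · ext x y
    simp only [Cpow, piKron_apply, submatrix_apply, kroneckerMap_apply]
    rw [← e.prod_comp, Fintype.prod_sum_type, Fintype.prod_prod_type]
  · simp only [Fintype.card_fun, ZMod.card, Fintype.card_fin, ← hmdef]
    have h5 : 2 ^ Fintype.card κ = (2 ^ m) ^ (j / m) * 2 ^ (j % m) * 2 ^ e0 := by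
      rw [← pow_mul, ← pow_add, ← pow_add, hj]
      congr 1
      rw [mul_comm m]; omega
    have h6 : r * σ + γ ≤ 2 ^ e0 * (r * σ / 2 ^ e0 + (1 + γ)) := by
      have h7 : 0 < 2 ^ e0 := Nat.two_pow_pos _
      have h8 := Nat.div_add_mod (r * σ) (2 ^ e0)
      have h9 := Nat.mod_lt (r * σ) h7
      have h10 : γ ≤ 2 ^ e0 * γ := Nat.le_mul_of_pos_left _ h7
      rw [mul_add, mul_add, mul_one]
      omega
    rw [h5, pow_add 2 (j % m)]
    generalize (2 ^ m) ^ (j / m) = X at *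
    generalize 2 ^ (j % m) = Y at *
    generalize 2 * 2 ^ (m + e0) = U at *
    calc X * (Y * 2 ^ e0 * U) + Y * ((r * σ + γ) * X)
        ≤ X * (Y * 2 ^ e0 * U) + Y * ((2 ^ e0 * (r * σ / 2 ^ e0 + (1 + γ))) * X) := by gcongr
      _ = _ := by ring

theorem good_iter {m e0 r c : ℕ} (hm : 2 ≤ m) (lam : ℝ) (hlam : 2 ≤ lam) (hr : (r : ℝ) ≤ lam * 2 ^ e0)
    (h : ∀ L σ : ℕ, Good L σ → Good (m * L) (r * σ / 2 ^ e0 + c)) :
    ∃ A : ℝ, 0 ≤ A ∧ ∀ L : ℕ, 1 ≤ L → ∃ σ : ℕ, Good L σ ∧ (σ : ℝ) ≤ A * (L : ℝ) ^ Real.logb m lam := by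
  have key : ∀ t : ℕ, ∃ σ : ℕ, Good (m ^ t) σ ∧ (σ : ℝ) + c ≤ (4 + c) * lam ^ t := by
    intro t
    induction t with
    | zero => exact ⟨4, by simpa using good_triv 1, by simp⟩
    | succ t ih =>
      obtain ⟨σ, hG, hσ⟩ := ih
      refine ⟨_, pow_succ' m t ▸ h _ _ hG, ?_⟩
      have h1 : ((r * σ / 2 ^ e0 : ℕ) : ℝ) ≤ lam * σ := by
        refine Nat.cast_div_le.trans ?_
        push_cast
        rw [div_le_iff₀ (by positivity)]
        nlinarith [(Nat.cast_nonneg σ : (0 : ℝ) ≤ σ)]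
      push_cast
      rw [pow_succ, ← mul_assoc]
      nlinarith [(Nat.cast_nonneg c : (0 : ℝ) ≤ c)]
  have hm' : (1 : ℝ) < m := by exact_mod_cast hm
  have hθ : 0 ≤ Real.logb m lam := Real.logb_nonneg hm' (by linarith)
  refine ⟨(4 + c) * lam, by positivity, fun L hL => ?_⟩
  obtain ⟨σ, hG, hσ⟩ := key (Nat.clog m L)
  refine ⟨σ, hG.mono (Nat.le_pow_clog hm L) le_rfl, ?_⟩
  have hL' : (1 : ℝ) ≤ L := by exact_mod_cast hL
  have h1 : lam ^ Nat.clog m L ≤ lam * (L : ℝ) ^ Real.logb m lam := by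
    rcases Nat.eq_or_lt_of_le hL with rfl | hL1
    · simp; linarith
    have h2 := Nat.pow_pred_clog_lt_self hm hL1
    have h3 : 0 < Nat.clog m L := Nat.clog_pos hm hL1
    obtain ⟨t, ht⟩ : ∃ t, Nat.clog m L = t + 1 := ⟨_, (Nat.succ_pred_eq_of_pos h3).symm⟩
    rw [ht] at h2 ⊢
    rw [pow_succ']
    refine mul_le_mul_of_nonneg_left ?_ (by linarith)
    have h4 : lam ^ t = ((m : ℝ) ^ t) ^ Real.logb m lam := by
      rw [← Real.rpow_natCast (m : ℝ), ← Real.rpow_mul (by positivity), mul_comm,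
        Real.rpow_mul (by positivity), Real.rpow_logb (by positivity) hm'.ne' (by linarith),
        Real.rpow_natCast]
    rw [h4]
    refine Real.rpow_le_rpow (by positivity) ?_ hθ
    exact_mod_cast h2.le
  have h5 : (0 : ℝ) ≤ c := Nat.cast_nonneg c
  calc (σ : ℝ) ≤ (4 + c) * lam ^ Nat.clog m L := by linarith
    _ ≤ (4 + c) * (lam * (L : ℝ) ^ Real.logb m lam) := by gcongr
    _ = _ := by ring

theorem good_main_aux (H : Type) [Fintype H] [DecidableEq H] (hH : Fintype.card H = 100) :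
    ∃ A : ℝ, 0 ≤ A ∧ ∀ L : ℕ, 1 ≤ L → ∃ σ : ℕ, Good L σ ∧
    (σ : ℝ) ≤ A * (L : ℝ) ^ Crest.FourierCircuit.savingExponent := by
  have hv : Fintype.card (Tri H) = 161700 := by
    rw [card_tri, hH]; norm_num [Nat.choose]
  have hs : Fintype.card (Side H) ≤ 161700 ^ 2 := hv ▸ card_side_le
  obtain ⟨nI, hI⟩ : ∃ nI, 2 * 161700 ^ 3 + 3 * 161700 ^ 2 * Fintype.card (Side H) + nI = 2 ^ 71 :=
    ⟨2 ^ 71 - (2 * 161700 ^ 3 + 3 * 161700 ^ 2 * Fintype.card (Side H)), by omega⟩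
  let _ : DecidableEq (Wires (Tri H) (Side H) (Fin nI)) := Classical.decEq _
  obtain ⟨γ, hb⟩ := net_batch (Id := Fin nI) (triDesign H) (fun t => tau (ind t)) 98
    (fun t => Rk.tau _) ((rk_one (H := H)).mono (by omega))
    (fun t => (tri_r1 (H := H) (by omega) t).mono (by omega))
    (fun p => (tri_r2 (H := H) (by omega) p).mono (by omega))
  have hm : Fintype.card (H × H × H) = 10 ^ 6 := by simp [hH]
  obtain ⟨c, hc⟩ := good_step (e0 := 71) (by
    simp only [Wires, Fintype.card_sum, Fintype.card_prod, hv, Fintype.card_fin]; omega)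
    (by omega) hb
  rw [hm] at hc
  have := good_iter (by norm_num) (10 ^ 6 - 6871402692000000 / 2 ^ 71) (by norm_num) ?_ hc
  · rw [Nat.cast_pow, Nat.cast_ofNat] at this
    exact this
  · simp only [hv, Fintype.card_option, Fintype.card_fin, hH]
    have h1 : (nI : ℝ) = 2 ^ 71 - (2 * 161700 ^ 3 + 3 * 161700 ^ 2 * Fintype.card (Side H)) := by
      have := congrArg (Nat.cast : ℕ → ℝ) hI
      push_cast at this
      linarith
    push_cast
    rw [h1]
    linarith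

/-- the main saving -/
theorem good_main : ∃ A : ℝ, 0 ≤ A ∧ ∀ L : ℕ, 1 ≤ L → ∃ σ : ℕ, Good L σ ∧
    (σ : ℝ) ≤ A * (L : ℝ) ^ Crest.FourierCircuit.savingExponent :=
  good_main_aux (Fin 100) (Fintype.card_fin _)

end Crest.Agent.R324
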