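import Crest.Agent.R324.Small
import Crest.Agent.R324.Recur

/-! Assembling the Fourier transform of arbitrary order. -/

set_option autoImplicit false
set_option linter.unusedSectionVars false
set_option linter.unusedSimpArgs false

namespace Crest.Agent.R324
open Matrix Kronecker

theorem batch_Fz {L σ : ℕ} (hG : Good L σ) {κ : Type} [Fintype κ] [DecidableEq κ] [Nonempty κ]
    (hκ : Fintype.card κ ≤ L) (q : κ → ℕ) [∀ c, NeZero (q c)] (N : ℕ) [NeZero N] (hN : N = ∏ c, q c)
    (hq : Pairwise fun c c' => (q c).Coprime (q c')) (Q : ℕ) (hQ : ∀ c, q c ≤ Q)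
    (R : Type) [Fintype R] [DecidableEq R] (hR : 6 ^ Fintype.card κ ≤ Fintype.card R) :
    Cost ((1 : Matrix R R ℂ) ⊗ₖ Fz N)
      (Fintype.card R * N * (2 * ((144 * Nat.clog 2 (2 * Q) + 217) * (σ + 1)))) := by
  have h1 := cost_piKron_dep hG hκ (144 * Nat.clog 2 (2 * Q) + 216)
    (fun c => (1 : Matrix (Fin 3 × Bool) (Fin 3 × Bool) ℂ) ⊗ₖ Fz (q c)) fun c =>
      (dep_Fz_six (q c)).le (by
        have := Nat.clog_mono_right 2 (Nat.mul_le_mul_left 2 (hQ c))
        omega)
  obtain ⟨e₁, e₂, he₂, hF⟩ := coprime_factor q N hN hq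
  have h2 := h1.submatrix (fun (p : (κ → Fin 3 × Bool) × ZMod N) c => (p.1 c, e₁ p.2 c))
    (fun (p : (κ → Fin 3 × Bool) × ZMod N) c => (p.1 c, e₂ p.2 c)) (by
      rintro ⟨a, b⟩ ⟨a', b'⟩ h
      simp only [funext_iff, Prod.mk.injEq] at h
      exact Prod.ext (funext fun c => (h c).1) (he₂ (funext fun c => (h c).2)))
  have h3 : Cost ((1 : Matrix (κ → Fin 3 × Bool) (κ → Fin 3 × Bool) ℂ) ⊗ₖ Fz N)
      (6 ^ Fintype.card κ * N * ((144 * Nat.clog 2 (2 * Q) + 217) * (σ + 1))) := by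
    convert h2 using 1
    · ext ⟨a, j⟩ ⟨b, k⟩
      rw [hF]
      simp only [kroneckerMap_apply, submatrix_apply, piKron_apply, Finset.prod_mul_distrib,
        Matrix.one_apply, Fintype.prod_boole, funext_iff]
    · simp [Finset.prod_mul_distrib, hN]
  obtain ⟨e⟩ : Nonempty (R ↪ Fin (Fintype.card R / 6 ^ Fintype.card κ + 1) × (κ → Fin 3 × Bool)) := by
    refine Function.Embedding.nonempty_of_card_le ?_
    simp only [Fintype.card_prod, Fintype.card_fin, Fintype.card_fun, Fintype.card_bool]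
    exact (Nat.lt_div_mul_add (b := 6 ^ Fintype.card κ) (by positivity)).le.trans (le_of_eq (by ring))
  refine (h3.rebatch e e.injective).mono ?_
  rw [Fintype.card_fin]
  obtain ⟨X, hX⟩ : ∃ X, X = (144 * Nat.clog 2 (2 * Q) + 217) * (σ + 1) := ⟨_, rfl⟩
  rw [← hX]
  have h4 := Nat.div_mul_le_self (Fintype.card R) (6 ^ Fintype.card κ)
  have h5 : (Fintype.card R / 6 ^ Fintype.card κ + 1) * 6 ^ Fintype.card κ ≤ Fintype.card R * 2 := by
    rw [add_mul]; omega
  calc _ = (Fintype.card R / 6 ^ Fintype.card κ + 1) * 6 ^ Fintype.card κ * (N * X) := by ring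
    _ ≤ Fintype.card R * 2 * (N * X) := Nat.mul_le_mul_right _ h5
    _ = _ := by ring

theorem pow_Fz (N : ℕ) [NeZero N] (ρ γ : ℕ)
    (h : ∀ (R : Type) [Fintype R] [DecidableEq R], ρ ≤ Fintype.card R →
      Cost ((1 : Matrix R R ℂ) ⊗ₖ Fz N) (Fintype.card R * N * γ)) (s : ℕ) :
    ∀ (M : ℕ) [NeZero M], M = N ^ s → ∀ (R : Type) [Fintype R] [DecidableEq R],
      ρ * N ≤ Fintype.card R * M →
      Cost ((1 : Matrix R R ℂ) ⊗ₖ Fz M) (Fintype.card R * M * (s * (γ + 1))) := by
  induction s with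
  | zero =>
    intro M _ hM R _ _ _
    obtain rfl : M = 1 := hM
    have : Fz 1 = 1 := by
      ext j k
      obtain rfl := Subsingleton.elim j 0
      obtain rfl := Subsingleton.elim k 0
      simp [Fz]
    rw [this, Matrix.one_kronecker_one]
    exact Cost.one.mono (Nat.zero_le _)
  | succ s ih =>
    intro M _ hM R _ _ hR
    obtain rfl : M = N ^ s * N := hM
    obtain ⟨e₁, e₂, tw, hF⟩ := cooley_tukey (N ^ s) N
    have h1 : Cost ((1 : Matrix R R ℂ) ⊗ₖ (Fz (N ^ s) ⊗ₖ (1 : Matrix (ZMod N) (ZMod N) ℂ)))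
        (Fintype.card R * (N ^ s * N) * (s * (γ + 1))) := by
      have := (ih _ rfl (R × ZMod N) (by simpa [mul_assoc, mul_comm N] using hR)).submatrix
        (fun p : R × ZMod (N ^ s) × ZMod N => ((p.1, p.2.2), p.2.1))
        (fun p : R × ZMod (N ^ s) × ZMod N => ((p.1, p.2.2), p.2.1)) (by
          rintro ⟨a, b, c⟩ ⟨a', b', c'⟩ h
          simp only [Prod.mk.injEq] at h ⊢
          tauto)
      convert this using 1
      · ext ⟨a, b, c⟩ ⟨a', b', c'⟩
        by_cases h1 : a = a' <;> by_cases h2 : c = c' <;> simp [Matrix.one_apply, h1, h2]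
      · simp; ring_nf; simp
    have h2 : Cost ((1 : Matrix R R ℂ) ⊗ₖ ((1 : Matrix (ZMod (N ^ s)) (ZMod (N ^ s)) ℂ) ⊗ₖ Fz N))
        (Fintype.card R * (N ^ s * N) * γ) := by
      have := (h (R × ZMod (N ^ s)) (by
        have hN := NeZero.pos N
        rw [← mul_assoc] at hR
        simpa using Nat.le_of_mul_le_mul_right hR hN)).submatrix
        (fun p : R × ZMod (N ^ s) × ZMod N => ((p.1, p.2.1), p.2.2))
        (fun p : R × ZMod (N ^ s) × ZMod N => ((p.1, p.2.1), p.2.2)) (by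
          rintro ⟨a, b, c⟩ ⟨a', b', c'⟩ h
          simp only [Prod.mk.injEq] at h ⊢
          tauto)
      convert this using 1
      · ext ⟨a, b, c⟩ ⟨a', b', c'⟩
        by_cases h1 : a = a' <;> by_cases h2 : b = b' <;> simp [Matrix.one_apply, h1, h2]
      · simp [mul_assoc]
    have h3 := ((h1.mul ((Cost.diag tw).one_kron (R := R))).mul h2).submatrix
      (fun p : R × ZMod (N ^ s * N) => (p.1, e₁ p.2)) (fun p : R × ZMod (N ^ s * N) => (p.1, e₂ p.2))
      (by
        rintro ⟨a, b⟩ ⟨a', b'⟩ h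
        simpa using h)
    rw [← Matrix.mul_kronecker_mul, ← Matrix.mul_kronecker_mul, Matrix.mul_one, Matrix.mul_one] at h3
    rw [hF]
    refine Cost.mono h3 (le_of_eq ?_)
    simp; ring

theorem cost_dft (n M : ℕ) [NeZero M] (hM : 2 * n ≤ M) (c : ℕ) (h : Cost (Fz M) c) :
    Cost (Crest.FourierCircuit.dftMatrix n) (2 * c + M + 2 * n) := by
  obtain ⟨d, w, hd⟩ := chirp (N := M) (Complex.exp (2 * Real.pi * Complex.I / n))
    (Complex.exp_ne_zero _) (fun j : Fin n => j.val) fun x y => by omega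
  have h1 := (((h.mul (Cost.diag w)).mul h).submatrix (fun j : Fin n => (j.val : ZMod M))
    (fun j : Fin n => (j.val : ZMod M)) (by
      intro x y h
      have h1 := congrArg ZMod.val h
      simp only [ZMod.val_natCast] at h1
      rw [Nat.mod_eq_of_lt (by omega), Nat.mod_eq_of_lt (by omega)] at h1
      exact Fin.ext h1))
  have h2 := ((Cost.diag d).mul h1).mul (Cost.diag d)
  convert h2 using 1
  · ext x y
    rw [Matrix.mul_diagonal, Matrix.diagonal_mul, Matrix.submatrix_apply, ← hd]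
    rfl
  · simp; ring

theorem centralBinom_succ_bounds (r : ℕ) :
    2 * r.centralBinom ≤ (r + 1).centralBinom ∧ (r + 1).centralBinom ≤ 4 * r.centralBinom := by
  have h := Nat.succ_mul_centralBinom_succ r
  constructor
  · refine Nat.le_of_mul_le_mul_left ?_ (Nat.succ_pos r)
    rw [Nat.succ_eq_add_one, h]; nlinarith
  · refine Nat.le_of_mul_le_mul_left ?_ (Nat.succ_pos r)
    rw [Nat.succ_eq_add_one, h]; nlinarith

theorem two_pow_le_centralBinom (r : ℕ) : 2 ^ r ≤ r.centralBinom := by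
  induction r with
  | zero => simp
  | succ r ih => have := (centralBinom_succ_bounds r).1; rw [pow_succ]; omega

theorem exists_centralBinom (n : ℕ) (hn : 1 ≤ n) :
    ∃ r, 1 ≤ r ∧ 2 * n ≤ r.centralBinom ^ 4 ∧ r.centralBinom ^ 4 ≤ 512 * n := by
  have hex : ∃ r : ℕ, 2 * n ≤ r.centralBinom ^ 4 := by
    refine ⟨2 * n, ?_⟩
    have h1 := two_pow_le_centralBinom (2 * n)
    have h2 : 2 * n < 2 ^ (2 * n) := Nat.lt_two_pow_self
    exact (h2.le.trans h1).trans (Nat.le_self_pow (by norm_num) _)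
  have h1 := Nat.find_spec hex
  have h2 : Nat.find hex ≠ 0 := by
    intro h
    rw [h] at h1
    simp at h1
    omega
  obtain ⟨t, ht⟩ := Nat.exists_eq_succ_of_ne_zero h2
  have h3 := Nat.find_min hex (m := t) (by omega)
  rw [ht] at h1
  refine ⟨t + 1, by omega, h1, ?_⟩
  calc (t + 1).centralBinom ^ 4 ≤ (4 * t.centralBinom) ^ 4 :=
        Nat.pow_le_pow_left (centralBinom_succ_bounds t).2 _
    _ = 256 * t.centralBinom ^ 4 := by ring
    _ ≤ 512 * n := by omega

theorem cost_dft_r {σ : ℕ} (n r : ℕ) (hr : 1 ≤ r) (h1 : 2 * n ≤ r.centralBinom ^ 4)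
    (h2 : r.centralBinom ^ 4 ≤ 512 * n) (hG : Good (2 * r) σ) :
    Cost (Crest.FourierCircuit.dftMatrix n)
      (n * (12802 * ((144 * Nat.clog 2 (4 * r) + 217) * (σ + 1)))) := by
  set N := r.centralBinom with hNdef
  have hN2 : 2 ≤ N := le_trans (by simpa using Nat.pow_le_pow_right (n := 2) (by norm_num) hr)
    (two_pow_le_centralBinom r)
  have : NeZero N := ⟨by omega⟩
  have : Nonempty N.primeFactors := (Nat.nonempty_primeFactors.mpr hN2).to_subtype
  have : ∀ p : N.primeFactors, NeZero ((p : ℕ) ^ N.factorization p) := fun p =>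
    ⟨pow_ne_zero _ (Nat.prime_of_mem_primeFactors p.2).ne_zero⟩
  have hN : N = ∏ p : N.primeFactors, (p : ℕ) ^ N.factorization p :=
    Nat.prod_primeFactors_coe_pow_factorization (by omega)
  have hk : 2 ^ Fintype.card N.primeFactors ≤ N := by
    conv_rhs => rw [hN]
    rw [← Finset.card_univ]
    refine Finset.pow_card_le_prod _ _ _ fun p _ => ?_
    have hp := Nat.prime_of_mem_primeFactors p.2
    refine hp.two_le.trans (Nat.le_self_pow ?_ _)
    exact (hp.factorization_pos_of_dvd (by omega) (Nat.dvd_of_mem_primeFactors p.2)).ne'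
  have hk' : Fintype.card N.primeFactors ≤ 2 * r :=
    (Nat.pow_le_pow_iff_right (by norm_num)).mp (hk.trans (Nat.choose_le_two_pow _ _))
  have h3 := pow_Fz N (6 ^ Fintype.card N.primeFactors) _ (fun R _ _ hR =>
    batch_Fz hG hk' (fun p : N.primeFactors => (p : ℕ) ^ N.factorization p) N hN
      Nat.pairwise_coprime_pow_primeFactors_factorization (2 * r)
      (fun p => Nat.pow_factorization_choose_le (by omega)) R hR) 4 (N ^ 4) rfl Unit (by
    rw [Fintype.card_unit, one_mul, pow_succ]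
    refine Nat.mul_le_mul_right _ ?_
    calc 6 ^ Fintype.card N.primeFactors ≤ (2 ^ 3) ^ Fintype.card N.primeFactors :=
          Nat.pow_le_pow_left (by norm_num) _
      _ = (2 ^ Fintype.card N.primeFactors) ^ 3 := by rw [← pow_mul, ← pow_mul, mul_comm]
      _ ≤ N ^ 3 := Nat.pow_le_pow_left hk _)
  have h4 := h3.submatrix (fun j => ((), j)) (fun j => ((), j)) (fun a b h => by simpa using h)
  have h4' : ((1 : Matrix Unit Unit ℂ) ⊗ₖ Fz (N ^ 4)).submatrix (fun j => ((), j))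
      (fun j => ((), j)) = Fz (N ^ 4) := by
    ext j k
    simp
  rw [h4'] at h4
  refine (cost_dft n _ h1 _ h4).mono ?_
  rw [show 2 * (2 * r) = 4 * r by ring, Fintype.card_unit, one_mul]
  have h5 : 1 ≤ (144 * Nat.clog 2 (4 * r) + 217) * (σ + 1) := Nat.mul_pos (by omega) (by omega)
  obtain ⟨X, hX⟩ : ∃ X, X = (144 * Nat.clog 2 (4 * r) + 217) * (σ + 1) := ⟨_, rfl⟩
  rw [← hX] at h5 ⊢
  obtain ⟨M, hM⟩ : ∃ M, M = N ^ 4 := ⟨_, rfl⟩
  rw [← hM] at h1 h2 ⊢
  nlinarith [Nat.mul_le_mul_right X h2, Nat.mul_le_mul_left n h5]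

theorem savingExponent_bounds :
    0 ≤ Crest.FourierCircuit.savingExponent ∧ Crest.FourierCircuit.savingExponent ≤ 1 := by
  unfold Crest.FourierCircuit.savingExponent
  refine ⟨Real.logb_nonneg (by norm_num) (by norm_num), ?_⟩
  rw [Real.logb_le_iff_le_rpow (by norm_num) (by norm_num)]
  norm_num

theorem main :
    ∃ C : ℝ, ∃ N₀ : ℕ, ∀ n ≥ N₀, ∃ P : Crest.FourierCircuit.LinCircuit n,
      P.Computes (Crest.FourierCircuit.dftMatrix n) ∧
        (P.size : ℝ) ≤ C * n * Real.log n ^ Crest.FourierCircuit.savingExponent *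
          Real.log (Real.log n) ^ (4 - Crest.FourierCircuit.savingExponent) := by
  obtain ⟨A, hA, hmain⟩ := good_main
  obtain ⟨hθ0, hθ1⟩ := savingExponent_bounds
  set θ := Crest.FourierCircuit.savingExponent
  refine ⟨12802 * (937 * (2 * A + 1)), 512, fun n hn => ?_⟩
  obtain ⟨r, hr, h1, h2⟩ := exists_centralBinom n (by omega)
  obtain ⟨σ, hG, hσ⟩ := hmain (2 * r) (by omega)
  obtain ⟨P, hP, hs⟩ := circuit_of_cost _ _ (cost_dft_r n r hr h1 h2 hG)
  refine ⟨P, hP, ?_⟩
  have hn' : (512 : ℝ) ≤ n := by exact_mod_cast hn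
  have hl2 := Real.log_two_gt_d9
  have hl2' := Real.log_two_lt_d9
  have hlog : 9 * Real.log 2 ≤ Real.log n := by
    rw [← Nat.cast_ofNat (n := 9), ← Real.log_pow]
    exact Real.log_le_log (by norm_num) (by norm_num; linarith)
  have hll : 1 ≤ Real.log (Real.log n) := by
    rw [Real.le_log_iff_exp_le (by linarith)]
    have := Real.exp_one_lt_d9
    linarith
  have hr' : (r : ℝ) ≤ Real.log n := by
    have h3 : (2 ^ r) ^ 4 ≤ n * n :=
      ((Nat.pow_le_pow_left (two_pow_le_centralBinom r) 4).trans h2).trans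
        (Nat.mul_le_mul_right _ hn)
    have h4 : (((2 : ℝ) ^ r) ^ 4) ≤ n * n := by exact_mod_cast h3
    have h5 := Real.log_le_log (by positivity) h4
    rw [Real.log_mul (by linarith) (by linarith), Real.log_pow, Real.log_pow] at h5
    push_cast at h5
    have : (0 : ℝ) ≤ r := Nat.cast_nonneg r
    nlinarith
  have hc : (Nat.clog 2 (4 * r) : ℝ) ≤ 5 * Real.log (Real.log n) := by
    have h3 := Nat.pow_pred_clog_lt_self (b := 2) (by norm_num) (x := 4 * r) (by omega)
    have h4 : 0 < Nat.clog 2 (4 * r) := Nat.clog_pos (by norm_num) (by omega)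
    obtain ⟨t, ht⟩ : ∃ t, Nat.clog 2 (4 * r) = t + 1 := ⟨_, (Nat.succ_pred_eq_of_pos h4).symm⟩
    rw [ht] at h3 ⊢
    have h5 : (2 : ℝ) ^ t ≤ 2 ^ 2 * Real.log n := by
      have : ((2 ^ t : ℕ) : ℝ) ≤ (4 * r : ℕ) := by exact_mod_cast h3.le
      push_cast at this
      linarith
    have h6 := Real.log_le_log (by positivity) h5
    rw [Real.log_mul (by norm_num) (by linarith), Real.log_pow, Real.log_pow] at h6
    push_cast at h6 ⊢
    have : (0 : ℝ) ≤ t := Nat.cast_nonneg t
    nlinarith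
  have hpow1 : 1 ≤ Real.log n ^ θ := Real.one_le_rpow (by linarith) hθ0
  have hσ' : (σ : ℝ) + 1 ≤ (2 * A + 1) * Real.log n ^ θ := by
    have h3 : ((2 * r : ℕ) : ℝ) ^ θ ≤ 2 * Real.log n ^ θ := by
      calc ((2 * r : ℕ) : ℝ) ^ θ ≤ (2 * Real.log n) ^ θ :=
            Real.rpow_le_rpow (by positivity) (by push_cast; linarith) hθ0
        _ = 2 ^ θ * Real.log n ^ θ := Real.mul_rpow (by norm_num) (by linarith)
        _ ≤ 2 * Real.log n ^ θ := by
          gcongr
          simpa using Real.rpow_le_rpow_of_exponent_le (x := 2) (by norm_num) hθ1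
    nlinarith [mul_le_mul_of_nonneg_left h3 hA]
  have hll' : Real.log (Real.log n) ≤ Real.log (Real.log n) ^ (4 - θ) := by
    simpa using Real.rpow_le_rpow_of_exponent_le hll (show (1 : ℝ) ≤ 4 - θ by linarith)
  have hs' : (P.size : ℝ) ≤ n * (12802 * ((144 * Nat.clog 2 (4 * r) + 217) * (σ + 1))) := by
    exact_mod_cast hs
  calc (P.size : ℝ) ≤ n * (12802 * ((144 * Nat.clog 2 (4 * r) + 217) * (σ + 1))) := hs'
    _ ≤ n * (12802 * ((937 * Real.log (Real.log n) ^ (4 - θ)) * ((2 * A + 1) * Real.log n ^ θ))) := by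
      gcongr
      linarith
    _ = _ := by ring

end Crest.Agent.R324
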