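import Crest.Agent.R324.Cost

/-! Labelled wires: moving a wire between labels costs rank-one updates; gates act at equal labels. -/

set_option autoImplicit false

namespace Crest.Agent.R324
open Matrix Kronecker

/-- labels: square matrices over the field with two elements -/
abbrev Lab (ι : Type) := Matrix ι ι (ZMod 2)

theorem lab_add_self {ι : Type} (B : Lab ι) : B + B = 0 := by
  ext i j
  simp [CharTwo.add_self_eq_zero]

/-- the rank-one label of a vector -/
def tau {ι : Type} (w : ι → ZMod 2) : Lab ι := vecMulVec w w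

/-- `B` is a sum of at most `r` rank-one labels -/
def Rk {ι : Type} (B : Lab ι) (r : ℕ) : Prop :=
  ∃ (κ : Type) (s : Finset κ) (w : κ → ι → ZMod 2), s.card ≤ r ∧ B = ∑ j ∈ s, tau (w j)

namespace Rk
variable {ι ι' : Type}

theorem zero : Rk (0 : Lab ι) 0 := ⟨Unit, ∅, fun _ => 0, by simp, by simp⟩

theorem mono {B : Lab ι} {r r' : ℕ} (h : Rk B r) (hr : r ≤ r') : Rk B r' := by
  obtain ⟨κ, s, w, hs, hB⟩ := h
  exact ⟨κ, s, w, hs.trans hr, hB⟩

theorem tau (w : ι → ZMod 2) : Rk (tau w) 1 := ⟨Unit, {()}, fun _ => w, by simp, by simp⟩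

theorem add {B B' : Lab ι} {r r' : ℕ} (h : Rk B r) (h' : Rk B' r') : Rk (B + B') (r + r') := by
  obtain ⟨κ, s, w, hs, hB⟩ := h
  obtain ⟨κ', s', w', hs', hB'⟩ := h'
  refine ⟨κ ⊕ κ', s.disjSum s', Sum.elim w w', by simp; omega, ?_⟩
  rw [Finset.sum_disjSum, hB, hB']
  simp

theorem kron {B : Lab ι} {B' : Lab ι'} {r r' : ℕ} (h : Rk B r) (h' : Rk B' r') :
    Rk (B ⊗ₖ B' : Lab (ι × ι')) (r * r') := by
  obtain ⟨κ, s, w, hs, hB⟩ := h
  obtain ⟨κ', s', w', hs', hB'⟩ := h'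
  refine ⟨κ × κ', s ×ˢ s', fun k i => w k.1 i.1 * w' k.2 i.2, by
    rw [Finset.card_product]; exact Nat.mul_le_mul hs hs', ?_⟩
  rw [Finset.sum_product, hB, hB']
  ext ⟨i, i'⟩ ⟨j, j'⟩
  simp only [kroneckerMap_apply, Matrix.sum_apply, R324.tau, vecMulVec_apply, Finset.sum_mul_sum]
  refine Finset.sum_congr rfl fun k _ => Finset.sum_congr rfl fun k' _ => by ring

theorem isSymm {B : Lab ι} {r : ℕ} (h : Rk B r) : B.IsSymm := by
  obtain ⟨κ, s, w, -, rfl⟩ := h
  ext i j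
  simp [Matrix.sum_apply, R324.tau, vecMulVec_apply, mul_comm]

end Rk

/-- a family of operators in which a rank-one update of the label costs `u` gates -/
def IsSys {ι G : Type} [Fintype G] (Op : Lab ι → Matrix G G ℂ) (u : ℕ) : Prop :=
  ∀ B w, ∃ E, Cost E u ∧ Op (B + tau w) = E * Op B

theorem IsSys.move {ι G : Type} [Fintype G] {Op : Lab ι → Matrix G G ℂ} {u : ℕ} (h : IsSys Op u)
    {D : Lab ι} {r : ℕ} (hD : Rk D r) (B : Lab ι) : ∃ E, Cost E (r * u) ∧ Op (B + D) = E * Op B := by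
  classical
  obtain ⟨κ, s, w, hs, rfl⟩ := hD
  suffices ∃ E, Cost E (s.card * u) ∧ Op (B + ∑ j ∈ s, tau (w j)) = E * Op B by
    obtain ⟨E, hE, hE'⟩ := this
    exact ⟨E, hE.mono (Nat.mul_le_mul_right _ hs), hE'⟩
  clear hs
  induction s using Finset.induction_on with
  | empty => exact ⟨1, by simpa using Cost.one, by simp⟩
  | insert k s hk ih =>
    obtain ⟨E, hE, hE'⟩ := ih
    obtain ⟨E', hF, hF'⟩ := h (B + ∑ j ∈ s, tau (w j)) (w k)
    refine ⟨E' * E, ?_, ?_⟩
    · rw [Finset.card_insert_of_notMem hk]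
      exact (hF.mul hE).mono (by ring_nf; rfl)
    · rw [Finset.sum_insert hk, add_comm (tau (w k)), ← add_assoc, hF', hE', Matrix.mul_assoc]

section
variable {ι M : Type} [AddCommGroup M] [Module ℂ M]

/-- the linear forms stored on a set of labelled values -/
def interp {G J : Type} [Fintype G] (Op : Lab ι → Matrix G G ℂ) (φ : M →ₗ[ℂ] Matrix G J ℂ)
    (S : Set (Lab ι × M)) : Set (J → ℂ) := ⋃ p ∈ S, rows (Op p.1 * φ p.2)

theorem interp_mono {G J : Type} [Fintype G] (Op : Lab ι → Matrix G G ℂ) (φ : M →ₗ[ℂ] Matrix G J ℂ)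
    {S T : Set (Lab ι × M)} (h : S ⊆ T) : interp Op φ S ⊆ interp Op φ T :=
  Set.biUnion_subset_biUnion_left h

theorem rows_sub_interp {G J : Type} [Fintype G] (Op : Lab ι → Matrix G G ℂ)
    (φ : M →ₗ[ℂ] Matrix G J ℂ) {S : Set (Lab ι × M)} {B : Lab ι} {z : M} (h : (B, z) ∈ S) :
    rows (Op B * φ z) ⊆ interp Op φ S :=
  Set.subset_biUnion_of_mem (u := fun p : Lab ι × M => rows (Op p.1 * φ p.2)) h

/-- `Net S r T`: from the labelled values `S` one gets `T` with `r` rank-one moves and a bounded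
number of coordinatewise gates -/
def Net (S : Set (Lab ι × M)) (r : ℕ) (T : Set (Lab ι × M)) : Prop :=
  ∃ γ : ℕ, ∀ (G : Type) [Fintype G] (Op : Lab ι → Matrix G G ℂ) (u : ℕ), IsSys Op u →
    ∀ (J : Type) (φ : M →ₗ[ℂ] Matrix G J ℂ),
      SLP (interp Op φ S) (r * u + γ * Fintype.card G) (interp Op φ T)

/-- available at label `B` up to linear combinations -/
def Av (T : Set (Lab ι × M)) (B : Lab ι) : Submodule ℂ M := Submodule.span ℂ {y | (B, y) ∈ T}

theorem Av.of_mem {T : Set (Lab ι × M)} {B : Lab ι} {z : M} (h : (B, z) ∈ T) : z ∈ Av T B :=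
  Submodule.subset_span h

namespace Net
variable {S T T' U : Set (Lab ι × M)} {a b r r' : ℕ}

theorem refl (S : Set (Lab ι × M)) : Net S 0 S :=
  ⟨0, fun _ _ _ _ _ _ _ => SLP.base (Set.subset_insert _ _)⟩

theorem mono (h : Net S r T) (hr : r ≤ r') (hT : T' ⊆ T) : Net S r' T' := by
  obtain ⟨γ, h⟩ := h
  refine ⟨γ, fun G _ Op u hs J φ => ?_⟩
  exact ((h G Op u hs J φ).mono_right' (interp_mono _ _ hT)).mono_cost
    (Nat.add_le_add_right (Nat.mul_le_mul_right _ hr) _)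

theorem trans (h : Net S a T) (h' : Net T b U) : Net S (a + b) U := by
  obtain ⟨γ, h⟩ := h
  obtain ⟨γ', h'⟩ := h'
  refine ⟨γ + γ', fun G _ Op u hs J φ => ?_⟩
  exact ((h G Op u hs J φ).trans (h' G Op u hs J φ)).mono_cost (by ring_nf; rfl)

theorem keep (h : Net S a T) : Net S a (S ∪ T) := by
  obtain ⟨γ, h⟩ := h
  refine ⟨γ, fun G _ Op u hs J φ => ?_⟩
  refine (h G Op u hs J φ).keep.mono_right' ?_
  simp only [interp, Set.biUnion_union]
  rfl

theorem iUnion {κ : Type} [Fintype κ] (T : κ → Set (Lab ι × M)) (h : ∀ k, Net S r (T k)) :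
    Net S (Fintype.card κ * r) (⋃ k, T k) := by
  choose γ h using h
  refine ⟨∑ k, γ k, fun G _ Op u hs J φ => ?_⟩
  have := SLP.iUnion _ _ fun k => h k G Op u hs J φ
  refine (this.mono_right' ?_).mono_cost ?_
  · simp only [interp, Set.biUnion_iUnion]
    rfl
  · simp only [Finset.sum_add_distrib, Finset.sum_const, Finset.card_univ, smul_eq_mul,
      Finset.sum_mul, mul_assoc]
    rfl

theorem move1 {B B' D : Lab ι} {z : M} (h : (B, z) ∈ S) (hD : Rk D r) (hB : B + D = B') :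
    Net S r {(B', z)} := by
  refine ⟨0, fun G _ Op u hs J φ => ?_⟩
  obtain ⟨E, hE, hE'⟩ := hs.move hD B
  have := (hE J (Op B * φ z)).mono_left' (rows_sub_interp Op φ h)
  rw [← Matrix.mul_assoc, ← hE', hB] at this
  simpa [interp] using this

theorem lin1 {B : Lab ι} {z : M} (h : z ∈ Av S B) : Net S 0 {(B, z)} := by
  obtain ⟨n, c, g, hg⟩ := Submodule.mem_span_set'.mp h
  refine ⟨2 * n, fun G _ Op u hs J φ => ?_⟩
  have := SLP.iUnion (S := interp Op φ S) (fun _ : G => 2 * (Finset.univ : Finset (Fin n)).card)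
    (fun x => {∑ k, c k • (Op B * φ (g k)) x}) fun x =>
      SLP.lin Finset.univ c (fun k => (Op B * φ (g k)) x) fun k _ =>
        Or.inr (rows_sub_interp Op φ (g k).2 (mem_rows _ x))
  refine (this.mono_right' ?_).mono_cost ?_
  · simp only [interp, Set.mem_singleton_iff, Set.iUnion_iUnion_eq_left]
    rintro _ ⟨x, rfl⟩
    simp only [Set.mem_iUnion, Set.mem_singleton_iff]
    refine ⟨x, ?_⟩
    rw [← hg]
    simp only [map_sum, map_smul, Matrix.mul_sum, Matrix.mul_smul]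
    ext j
    simp [Matrix.sum_apply]
  · simp [mul_comm]

theorem mv {κ κ' : Type} [Fintype κ] [Fintype κ'] (h : Net S r T) (B B' D : κ → κ' → Lab ι)
    (z : κ → κ' → M) (ρ : ℕ) (hz : ∀ b k, (B b k, z b k) ∈ T) (hD : ∀ b k, Rk (D b k) ρ)
    (hB : ∀ b k, B b k + D b k = B' b k) :
    ∃ T', Net S (r + Fintype.card κ * (Fintype.card κ' * ρ)) T' ∧ (∀ q ∈ T, q ∈ T') ∧
      ∀ b k, (B' b k, z b k) ∈ T' := by
  refine ⟨_, h.trans (iUnion _ fun b => iUnion _ fun k => move1 (hz b k) (hD b k) (hB b k)).keep,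
    fun q hq => Or.inl hq, fun b k => Or.inr ?_⟩
  simp only [Set.mem_iUnion, Set.mem_singleton_iff]
  exact ⟨b, k, rfl⟩

theorem ln {κ κ' : Type} [Fintype κ] [Fintype κ'] (h : Net S r T) (B : κ → κ' → Lab ι)
    (z : κ → κ' → M) (hz : ∀ b k, z b k ∈ Av T (B b k)) :
    ∃ T', Net S r T' ∧ (∀ q ∈ T, q ∈ T') ∧ ∀ b k, (B b k, z b k) ∈ T' := by
  have := h.trans (iUnion _ fun b => iUnion _ fun k => lin1 (hz b k)).keep
  refine ⟨_, this.mono (by simp) subset_rfl, fun q hq => Or.inl hq, fun b k => Or.inr ?_⟩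
  simp only [Set.mem_iUnion, Set.mem_singleton_iff]
  exact ⟨b, k, rfl⟩

end Net
end

end Crest.Agent.R324
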