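import Crest.Agent.R324.Kron
import Crest.Agent.R324.Net

/-! Convolution operators with quadratic symbols realize the labelled wires. -/

set_option autoImplicit false
set_option linter.unusedSectionVars false
set_option linter.unusedSimpArgs false

namespace Crest.Agent.R324
open Matrix Kronecker

/-- the sign character of the field with two elements -/
def sgn (t : ZMod 2) : ℂ := if t = 0 then 1 else -1

theorem one_add_one_zmod2 : (1 : ZMod 2) + 1 = 0 := by decide

theorem sgn_add (a b : ZMod 2) : sgn (a + b) = sgn a * sgn b := by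
  rcases zmod2_cases a with rfl | rfl <;> rcases zmod2_cases b with rfl | rfl <;>
    simp [sgn, one_add_one_zmod2]

theorem sgn_zero : sgn 0 = 1 := by simp [sgn]

theorem sgn_mul_self (a : ZMod 2) : sgn a * sgn a = 1 := by
  rw [← sgn_add, CharTwo.add_self_eq_zero, sgn_zero]

theorem sgn_sum {ι : Type} (s : Finset ι) (f : ι → ZMod 2) : sgn (∑ i ∈ s, f i) = ∏ i ∈ s, sgn (f i) := by
  classical
  induction s using Finset.induction_on with
  | empty => simp [sgn_zero]
  | insert a s ha ih => rw [Finset.sum_insert ha, Finset.prod_insert ha, sgn_add, ih]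

theorem sgn_natCast (n : ℕ) : sgn (n : ZMod 2) = (-1) ^ n := by
  induction n with
  | zero => simp [sgn_zero]
  | succ n ih => rw [Nat.cast_succ, sgn_add, ih, pow_succ]; simp [sgn]

/-- the two-point Fourier matrix -/
def H1 : Matrix (ZMod 2) (ZMod 2) ℂ := Matrix.of fun a b => sgn (a * b)
/-- its inverse -/
noncomputable def H1' : Matrix (ZMod 2) (ZMod 2) ℂ := Matrix.of fun a b => sgn (a * b) / 2

theorem H1_mul : H1 * H1' = 1 := by
  ext a b
  rcases zmod2_cases a with rfl | rfl <;> rcases zmod2_cases b with rfl | rfl <;>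
    simp [Matrix.mul_apply, sum_zmod2, H1, H1', sgn] <;> norm_num

theorem H1_cj_sgn (u : ZMod 2) : H1' * diagonal (fun t => sgn (u * t)) * H1 = sel (· + u) := by
  ext a b
  rw [Matrix.mul_apply]
  simp only [Matrix.mul_diagonal]
  rcases zmod2_cases u with rfl | rfl <;>
  rcases zmod2_cases a with rfl | rfl <;> rcases zmod2_cases b with rfl | rfl <;>
    simp [sum_zmod2, H1, H1', sgn, sel_apply, one_add_one_zmod2] <;> norm_num

theorem H1_cj_I : H1' * diagonal (fun t => Complex.I ^ t.val) * H1 = C2 := by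
  ext a b
  rw [Matrix.mul_apply]
  simp only [Matrix.mul_diagonal]
  have : (1 : ZMod 2).val = 1 := rfl
  rcases zmod2_cases a with rfl | rfl <;> rcases zmod2_cases b with rfl | rfl <;>
    simp [sum_zmod2, H1, H1', sgn, C2_00, C2_01, C2_10, C2_11, ca, cb, this] <;> ring

section
variable {ι : Type} [Fintype ι] [DecidableEq ι]

/-- the convolution operator with symbol `f` -/
noncomputable def cj (f : (ι → ZMod 2) → ℂ) : Matrix (ι → ZMod 2) (ι → ZMod 2) ℂ :=
  piKron (fun _ : ι => H1') * diagonal f * piKron (fun _ : ι => H1)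

theorem Hm_mul : piKron (fun _ : ι => H1) * piKron (fun _ : ι => H1') = 1 := by
  rw [piKron_mul]; simp only [H1_mul, piKron_one]

theorem cj_mul (f g : (ι → ZMod 2) → ℂ) : cj (fun x => f x * g x) = cj f * cj g := by
  simp only [cj, ← diagonal_mul_diagonal, Matrix.mul_assoc]
  rw [← Matrix.mul_assoc (piKron fun _ : ι => H1), Hm_mul, Matrix.one_mul]

theorem cj_prod (g : ι → ZMod 2 → ℂ) :
    cj (fun x => ∏ i, g i (x i)) = piKron fun i => H1' * diagonal (g i) * H1 := by
  rw [cj, ← piKron_diagonal, piKron_mul, piKron_mul]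

theorem cj_sgn (u : ι → ZMod 2) : cj (fun x => sgn (u ⬝ᵥ x)) = sel (· + u) := by
  simp only [dotProduct, sgn_sum]
  rw [cj_prod (fun i t => sgn (u i * t))]
  simp only [H1_cj_sgn, piKron_sel]
  rfl

theorem cj_one : cj (fun _ : ι → ZMod 2 => 1) = 1 := by
  have := cj_sgn (0 : ι → ZMod 2)
  simp only [zero_dotProduct, sgn_zero, add_zero] at this
  rw [this]; exact sel_id

theorem cj_lin (a b : ℂ) (f : (ι → ZMod 2) → ℂ) : cj (fun x => a + b * f x) = a • 1 + b • cj f := by
  rw [← cj_one]
  have : diagonal (fun x => a + b * f x) = a • diagonal (fun _ => (1 : ℂ)) + b • diagonal f := by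
    ext x y
    by_cases h : x = y <;> simp [diagonal_apply, h]
  simp only [cj, this, Matrix.mul_add, Matrix.add_mul, Matrix.mul_smul, Matrix.smul_mul]

/-- the quadratic form of a label, lifted to the natural numbers -/
def qf (B : Lab ι) (x : ι → ZMod 2) : ℕ := ∑ i, ∑ j, (B i j).val * ((x i).val * (x j).val)

theorem sum_symm_char2 (f : ι → ι → ZMod 2) (hf : ∀ i j, f i j = f j i) :
    ∑ i, ∑ j, f i j = ∑ i, f i i := by
  rw [← Finset.sum_product', ← Finset.diag_union_offDiag, Finset.sum_union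
    (Finset.disjoint_diag_offDiag _), Finset.sum_diag]
  rw [Finset.sum_involution (s := Finset.univ.offDiag) (f := fun p => f p.1 p.2)
    (fun p _ => p.swap), add_zero]
  · intro p _
    simp [hf p.2 p.1, CharTwo.add_self_eq_zero]
  · intro p hp _ h
    simp only [Finset.mem_offDiag] at hp
    exact hp.2.2 (congrArg Prod.snd h)
  · intro p hp
    simp only [Finset.mem_offDiag, Finset.mem_univ, true_and] at hp ⊢
    exact fun h => hp h.symm
  · intro p _; rfl

theorem qf_add {B B' : Lab ι} (hB : B.IsSymm) (hB' : B'.IsSymm) (x : ι → ZMod 2) :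
    Complex.I ^ qf (B + B') x =
      sgn ((fun i => B i i * B' i i) ⬝ᵥ x) * (Complex.I ^ qf B' x * Complex.I ^ qf B x) := by
  have h1 : ∀ a b : ZMod 2, b.val + a.val = (a + b).val + 2 * (a * b).val := by decide
  have h2 : qf B' x + qf B x = qf (B + B') x + 2 * qf (Matrix.of fun i j => B i j * B' i j) x := by
    simp only [qf, ← Finset.sum_add_distrib, Finset.mul_sum, Matrix.add_apply, Matrix.of_apply]
    refine Finset.sum_congr rfl fun i _ => Finset.sum_congr rfl fun j _ => ?_
    rw [← add_mul, h1]; ring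
  have h3 : ((qf (Matrix.of fun i j => B i j * B' i j) x : ℕ) : ZMod 2) =
      (fun i => B i i * B' i i) ⬝ᵥ x := by
    simp only [qf, Nat.cast_sum, Nat.cast_mul, ZMod.natCast_val, ZMod.cast_id', id, Matrix.of_apply]
    rw [sum_symm_char2]
    · refine Finset.sum_congr rfl fun i _ => ?_
      have : ∀ t : ZMod 2, t * t = t := by decide
      rw [this]
    · intro i j
      rw [hB.apply i j, hB'.apply i j, mul_comm (x i)]
  rw [← pow_add, h2, pow_add, pow_mul, Complex.I_sq, ← sgn_natCast, h3, mul_comm (Complex.I ^ _),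
    ← mul_assoc, sgn_mul_self, one_mul]

theorem I_pow_sq (n : ℕ) : Complex.I ^ (n * n) = ca + cb * (-1) ^ n := by
  rcases Nat.even_or_odd' n with ⟨k, rfl | rfl⟩
  · have : 2 * k * (2 * k) = 4 * (k * k) := by ring
    rw [this, pow_mul, Complex.I_pow_four, pow_mul]
    simp [ca_add_cb]
  · have : (2 * k + 1) * (2 * k + 1) = 4 * (k * k + k) + 1 := by ring
    rw [this, pow_succ, pow_mul, Complex.I_pow_four, pow_succ, pow_mul]
    simp [ca, cb]; ring

theorem qf_tau (w x : ι → ZMod 2) : Complex.I ^ qf (tau w) x = ca + cb * sgn (w ⬝ᵥ x) := by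
  have h1 : ∀ a b : ZMod 2, (a * b).val = a.val * b.val := by decide
  have h2 : qf (tau w) x = (∑ i, (w i).val * (x i).val) * (∑ i, (w i).val * (x i).val) := by
    simp only [qf, tau, vecMulVec_apply, h1, Finset.sum_mul_sum]
    refine Finset.sum_congr rfl fun i _ => Finset.sum_congr rfl fun j _ => by ring
  rw [h2, I_pow_sq, ← sgn_natCast]
  simp [dotProduct]

theorem qf_one (x : ι → ZMod 2) : Complex.I ^ qf (1 : Lab ι) x = ∏ i, Complex.I ^ (x i).val := by
  rw [Finset.prod_pow_eq_pow_sum]
  congr 1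
  refine Finset.sum_congr rfl fun i _ => ?_
  rw [Finset.sum_eq_single i]
  · have : ∀ t : ZMod 2, (1 : ZMod 2).val * (t.val * t.val) = t.val := by decide
    rw [Matrix.one_apply_eq, this]
  · intro j _ hj
    rw [Matrix.one_apply_ne hj.symm]; simp
  · simp

/-- the one-column operator of a label -/
noncomputable def Kop (B : Lab ι) : Matrix (ι → ZMod 2) (ι → ZMod 2) ℂ :=
  cj fun x => Complex.I ^ qf B x

theorem Kop_add {B B' : Lab ι} (hB : B.IsSymm) (hB' : B'.IsSymm) :
    Kop (B + B') = sel (· + fun i => B i i * B' i i) * (Kop B' * Kop B) := by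
  simp only [Kop, qf_add hB hB', cj_mul, cj_sgn]

theorem Kop_tau (w : ι → ZMod 2) : Kop (tau w) = lay (· + w) := by
  simp only [Kop, qf_tau, cj_lin, cj_sgn, lay]

theorem Kop_one : Kop (1 : Lab ι) = Cpow ι := by
  simp only [Kop, qf_one]
  rw [cj_prod (fun _ t => Complex.I ^ t.val)]
  simp only [H1_cj_I, Cpow]

theorem Kop_inv (B : Lab ι) : ∃ K', Kop B * K' = 1 := by
  refine ⟨cj fun x => (Complex.I ^ qf B x)⁻¹, ?_⟩
  rw [Kop, ← cj_mul, ← cj_one]
  congr 1
  ext x
  exact mul_inv_cancel₀ (pow_ne_zero _ Complex.I_ne_zero)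

open Classical in
/-- the operator of a label on several columns -/
noncomputable def Opl (Λ : Type) [Fintype Λ] (B : Lab ι) :
    Matrix (Λ → ι → ZMod 2) (Λ → ι → ZMod 2) ℂ :=
  if B.IsSymm then piKron fun _ : Λ => Kop B else 1

theorem opl_isSys {L σ : ℕ} (hG : Good L σ) (Λ : Type) [Fintype Λ] [DecidableEq Λ]
    (hΛ : Fintype.card Λ ≤ L) :
    IsSys (Opl (ι := ι) Λ) (Fintype.card (Λ → ι → ZMod 2) * σ) := by
  intro B w
  have hw : (tau w).IsSymm := (Rk.tau w).isSymm
  by_cases hB : B.IsSymm
  · refine ⟨piKron (fun _ : Λ => sel (· + fun i => B i i * tau w i i)) *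
      piKron (fun _ : Λ => lay (· + w)), ?_, ?_⟩
    · rw [piKron_sel]
      have := (Cost.sel (fun (x : Λ → ι → ZMod 2) c => x c + fun i => B i i * tau w i i)).mul
        (cost_piKron_lay hG hΛ (W := fun _ : Λ => ι → ZMod 2) (fun _ => (· + w)) fun _ x => by
          ext i
          simp [add_assoc, CharTwo.add_self_eq_zero])
      refine this.mono (le_of_eq ?_)
      simp
    · simp only [Opl, if_pos hB, if_pos (hB.add hw), Kop_add hB hw, Kop_tau, piKron_mul,
        Matrix.mul_assoc]
  · refine ⟨1, Cost.one.mono (Nat.zero_le _), ?_⟩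
    have : ¬ (B + tau w).IsSymm := fun h => hB (by
      have := h.add hw
      rwa [add_assoc, lab_add_self, add_zero] at this)
    simp only [Opl, if_neg hB, if_neg this, Matrix.one_mul]

/-- a network whose wires all advance by the identity label computes a batch of tensor powers -/
theorem batch_of_net {Wt : Type} [Fintype Wt] [DecidableEq Wt] (start : Wt → Lab ι)
    (hs : ∀ w, (start w).IsSymm) {r : ℕ} {S T : Set (Lab ι × (Wt → ℂ))} (h : Net S r T)
    (hS : ∀ q ∈ S, ∃ w, q = (start w, Pi.single w 1)) (hT : ∀ w, (start w + 1, Pi.single w 1) ∈ T) :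
    ∃ γ : ℕ, ∀ (L σ : ℕ), Good L σ → ∀ (Λ : Type) [Fintype Λ] [DecidableEq Λ], Fintype.card Λ ≤ L →
      Cost ((1 : Matrix Wt Wt ℂ) ⊗ₖ piKron fun _ : Λ => Cpow ι)
        ((r * σ + γ) * Fintype.card (Λ → ι → ZMod 2)) := by
  obtain ⟨γ, h⟩ := h
  refine ⟨γ, fun L σ hG Λ _ _ hΛ J x => ?_⟩
  choose K' hK' using fun w => Kop_inv (start w)
  let Y : Wt → Matrix (Λ → ι → ZMod 2) J ℂ := fun w => Matrix.of fun g j => x (w, g) j
  let Z : Wt → Matrix (Λ → ι → ZMod 2) J ℂ := fun w => piKron (fun _ : Λ => K' w) * Y w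
  have hZ : ∀ w, piKron (fun _ : Λ => Kop (start w)) * Z w = Y w := by
    intro w
    simp only [Z, ← Matrix.mul_assoc, piKron_mul, hK', piKron_one, Matrix.one_mul]
  have := h _ _ _ (opl_isSys hG Λ hΛ) J (Fintype.linearCombination ℂ Z)
  refine ((this.mono_left' ?_).mono_right' ?_).mono_cost (le_of_eq (by ring))
  · intro v hv
    simp only [interp, Set.mem_iUnion] at hv
    obtain ⟨q, hq, hv⟩ := hv
    obtain ⟨w, rfl⟩ := hS q hq
    simp only [Fintype.linearCombination_apply_single, one_smul, Opl, if_pos (hs w), hZ] at hv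
    obtain ⟨g, rfl⟩ := hv
    exact ⟨(w, g), rfl⟩
  · rintro _ ⟨⟨w, g⟩, rfl⟩
    refine rows_sub_interp _ _ (hT w) ?_
    have e : Opl Λ (start w + 1) * Z w =
        sel (fun (x : Λ → ι → ZMod 2) c => x c + fun i => start w i i * (1 : Lab ι) i i) *
          (piKron (fun _ : Λ => Cpow ι) * Y w) := by
      rw [Opl, if_pos ((hs w).add Matrix.isSymm_one), Kop_add (hs w) Matrix.isSymm_one,
        ← piKron_mul, ← piKron_mul, Matrix.mul_assoc, Matrix.mul_assoc, hZ, Kop_one, piKron_sel]
    simp only [Fintype.linearCombination_apply_single, one_smul, e, sel_mul]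
    refine ⟨fun c => g c + fun i => start w i i * (1 : Lab ι) i i, ?_⟩
    ext j
    have : (fun c => (g c + fun i => start w i i * (1 : Lab ι) i i) +
        fun i => start w i i * (1 : Lab ι) i i) = g := by
      ext c i
      simp [add_assoc, CharTwo.add_self_eq_zero]
    simp only [Matrix.submatrix_apply, this, id]
    simp [Matrix.mul_apply, Fintype.sum_prod_type, Matrix.one_apply, Y]

end

end Crest.Agent.R324
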