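import Crest.Agent.R324.Net

/-! The two shear gadgets. -/

set_option autoImplicit false

namespace Crest.Agent.R324
open Matrix Kronecker

/-- The identity matrix on `𝒯` split as a low rank part through `Ce` and single entries `Sd`. -/
structure Design (𝒯 Sd Ce : Type) [Fintype 𝒯] [Fintype Sd] [Fintype Ce] [DecidableEq 𝒯] where
  /-- source of a side wire -/
  src : Sd → 𝒯
  /-- target of a side wire -/
  tgt : Sd → 𝒯
  /-- coefficient of a side wire -/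
  j : Sd → ℂ
  /-- reading the centre -/
  R : 𝒯 → Ce → ℂ
  /-- writing the centre -/
  G : Ce → 𝒯 → ℂ
  hid : ∀ S T, (∑ p, if tgt p = S ∧ src p = T then j p else 0) + ∑ i, R S i * G i T =
    if S = T then 1 else 0

variable {𝒯 Sd Ce : Type} [Fintype 𝒯] [Fintype Sd] [Fintype Ce] [DecidableEq 𝒯]
variable {ι M : Type} [AddCommGroup M] [Module ℂ M]

namespace Design
variable (d : Design 𝒯 Sd Ce)

/-- side contribution -/
def Jm (S : 𝒯) (a : Sd → M) : M := ∑ p, if d.tgt p = S then d.j p • a p else 0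
/-- central contribution -/
def Rm (S : 𝒯) (c : Ce → M) : M := ∑ i, d.R S i • c i
/-- central values -/
def Gm (x : 𝒯 → M) (i : Ce) : M := ∑ T, d.G i T • x T

theorem Jm_add (S : 𝒯) (a a' : Sd → M) :
    d.Jm S (fun p => a p + a' p) = d.Jm S a + d.Jm S a' := by
  simp only [Jm, ← Finset.sum_add_distrib]
  refine Finset.sum_congr rfl fun p _ => ?_
  split_ifs <;> simp

theorem ident (S : 𝒯) (x : 𝒯 → M) :
    d.Jm S (fun p => x (d.src p)) + d.Rm S (d.Gm x) = x S := by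
  have h1 : d.Jm S (fun p => x (d.src p)) =
      ∑ T, (∑ p, if d.tgt p = S ∧ d.src p = T then d.j p else 0) • x T := by
    simp only [Jm, Finset.sum_smul]
    rw [Finset.sum_comm]
    refine Finset.sum_congr rfl fun p _ => ?_
    by_cases h : d.tgt p = S <;> simp [h]
  have h2 : d.Rm S (d.Gm x) = ∑ T, (∑ i, d.R S i * d.G i T) • x T := by
    simp only [Rm, Gm, Finset.sum_smul, Finset.smul_sum, mul_smul]
    rw [Finset.sum_comm]
  rw [h1, h2, ← Finset.sum_add_distrib]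
  simp only [← add_smul, d.hid]
  simp

theorem Jm_mem (V : Submodule ℂ M) (S : 𝒯) (a : Sd → M) (h : ∀ p, d.tgt p = S → a p ∈ V) :
    d.Jm S a ∈ V := by
  refine V.sum_mem fun p _ => ?_
  split_ifs with hp
  · exact V.smul_mem _ (h p hp)
  · exact V.zero_mem

theorem Rm_mem (V : Submodule ℂ M) (S : 𝒯) (c : Ce → M) (h : ∀ i, c i ∈ V) : d.Rm S c ∈ V :=
  V.sum_mem fun i _ => V.smul_mem _ (h i)

theorem Gm_mem (V : Submodule ℂ M) (x : 𝒯 → M) (i : Ce) (h : ∀ T, x T ∈ V) : d.Gm x i ∈ V :=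
  V.sum_mem fun T _ => V.smul_mem _ (h T)

end Design

theorem lab_cancel (A B : Lab ι) : A + B + B = A := by rw [add_assoc, lab_add_self, add_zero]

/-- forward gadget: the source starts on its line, the target ends on the complement of its line -/
theorem gadget_fwd (d : Design 𝒯 Sd Ce) {Bx : Type} [Fintype Bx] {S T : Set (Lab ι × M)} {r : ℕ}
    (h : Net S r T) (β δ : Bx → Lab ι) (φ : Lab ι) (τ : Bx → 𝒯 → Lab ι) (x y : Bx → 𝒯 → M)
    (a : Bx → Sd → M) (k rb rf : ℕ)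
    (hX : ∀ b t, (β b + τ b t, x b t) ∈ T) (hY : ∀ b t, (β b, y b t) ∈ T)
    (hA : ∀ b p, ((0 : Lab ι), a b p) ∈ T)
    (rβ : ∀ b, Rk (β b) rb) (rτ : ∀ b t, Rk (τ b t) 1) (rδ : ∀ b, Rk (δ b) (k + 2))
    (rδτ : ∀ b t, Rk (δ b + τ b t) (k + 1))
    (rδττ : ∀ b p, Rk (δ b + τ b (d.tgt p) + τ b (d.src p)) k)
    (rφ : ∀ b, Rk (φ + β b + δ b) rf) :
    ∃ T', Net S (r + Fintype.card Bx * (2 * Fintype.card 𝒯 * (k + 1) + Fintype.card Ce * (k + 2) +
        Fintype.card Sd * (rb + (k + 2) + rf))) T' ∧ (∀ q ∈ T, q ∈ T') ∧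
      (∀ b t, (β b + δ b, x b t) ∈ T') ∧ (∀ b t, (β b + δ b + τ b t, y b t + x b t) ∈ T') ∧
      ∀ b p, (φ, a b p) ∈ T' := by
  obtain ⟨T1, n1, s1, m1⟩ := h.mv (fun _ _ => 0) (fun b _ => β b) (fun b _ => β b) a rb hA
    (fun b _ => rβ b) (fun _ _ => zero_add _)
  obtain ⟨T2, n2, s2, m2⟩ := n1.mv (fun b t => β b + τ b t) (fun b _ => β b + δ b)
    (fun b t => δ b + τ b t) x (k + 1) (fun b t => s1 _ (hX b t)) rδτ
    (fun b t => by linear_combination (norm := abel) lab_add_self (τ b t))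
  obtain ⟨T3, n3, s3, m3⟩ := n2.ln (fun b (_ : Ce) => β b + δ b) (fun b => d.Gm (x b))
    (fun b i => d.Gm_mem _ _ _ fun t => Av.of_mem (m2 b t))
  obtain ⟨T4, n4, s4, m4⟩ := n3.mv (fun b _ => β b + δ b) (fun b _ => β b) (fun b _ => δ b)
    (fun b => d.Gm (x b)) (k + 2) m3 (fun b _ => rδ b) (fun b _ => lab_cancel _ _)
  obtain ⟨T5, n5, s5, m5⟩ := n4.ln (fun b (_ : 𝒯) => β b)
    (fun b t => y b t - d.Jm t (a b) + d.Rm t (d.Gm (x b)))
    (fun b t => Submodule.add_mem _ (Submodule.sub_mem _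
      (Av.of_mem (s4 _ (s3 _ (s2 _ (s1 _ (hY b t))))))
      (d.Jm_mem _ _ _ fun p _ => Av.of_mem (s4 _ (s3 _ (s2 _ (m1 b p))))))
      (d.Rm_mem _ _ _ fun i => Av.of_mem (m4 b i)))
  obtain ⟨T6, n6, s6, m6⟩ := n5.mv (fun b _ => β b) (fun b p => β b + τ b (d.src p))
    (fun b p => τ b (d.src p)) a 1 (fun b p => s5 _ (s4 _ (s3 _ (s2 _ (m1 b p)))))
    (fun b p => rτ b _) (fun _ _ => rfl)
  obtain ⟨T7, n7, s7, m7⟩ := n6.ln (fun b p => β b + τ b (d.src p))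
    (fun b p => a b p + x b (d.src p))
    (fun b p => Submodule.add_mem _ (Av.of_mem (m6 b p))
      (Av.of_mem (s6 _ (s5 _ (s4 _ (s3 _ (s2 _ (s1 _ (hX b _)))))))))
  obtain ⟨T8, n8, s8, m8⟩ := n7.mv (fun b p => β b + τ b (d.src p))
    (fun b p => β b + δ b + τ b (d.tgt p)) (fun b p => δ b + τ b (d.tgt p) + τ b (d.src p))
    (fun b p => a b p + x b (d.src p)) k m7 rδττ
    (fun b p => by linear_combination (norm := abel) lab_add_self (τ b (d.src p)))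
  obtain ⟨T9, n9, s9, m9⟩ := n8.mv (fun b _ => β b) (fun b t => β b + δ b + τ b t)
    (fun b t => δ b + τ b t) (fun b t => y b t - d.Jm t (a b) + d.Rm t (d.Gm (x b))) (k + 1)
    (fun b t => s8 _ (s7 _ (s6 _ (m5 b t)))) rδτ (fun _ _ => by abel)
  obtain ⟨T10, n10, s10, m10⟩ := n9.ln (fun b t => β b + δ b + τ b t) (fun b t => y b t + x b t)
    (fun b t => by
      have e : y b t + x b t = (y b t - d.Jm t (a b) + d.Rm t (d.Gm (x b))) +
          d.Jm t (fun p => a b p + x b (d.src p)) := by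
        rw [d.Jm_add, ← d.ident t (x b)]; abel
      rw [e]
      exact Submodule.add_mem _ (Av.of_mem (m9 b t))
        (d.Jm_mem _ _ _ fun p hp => Av.of_mem (hp ▸ s9 _ (m8 b p))))
  obtain ⟨T11, n11, s11, m11⟩ := n10.mv (fun b p => β b + δ b + τ b (d.tgt p))
    (fun b _ => β b + δ b) (fun b p => τ b (d.tgt p))
    (fun b p => a b p + x b (d.src p)) 1 (fun b p => s10 _ (s9 _ (m8 b p))) (fun b p => rτ b _)
    (fun b p => lab_cancel _ _)
  obtain ⟨T12, n12, s12, m12⟩ := n11.ln (fun b (_ : Sd) => β b + δ b) a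
    (fun b p => by
      have e : a b p = (a b p + x b (d.src p)) - x b (d.src p) := by abel
      rw [e]
      exact Submodule.sub_mem _ (Av.of_mem (m11 b p))
        (Av.of_mem (s11 _ (s10 _ (s9 _ (s8 _ (s7 _ (s6 _ (s5 _ (s4 _ (s3 _ (m2 b _))))))))))))
  obtain ⟨T13, n13, s13, m13⟩ := n12.mv (fun b _ => β b + δ b) (fun _ _ => φ)
    (fun b _ => φ + β b + δ b) a rf m12 (fun b _ => rφ b)
    (fun b _ => by linear_combination (norm := abel) lab_add_self (β b) + lab_add_self (δ b))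
  refine ⟨T13, n13.mono (le_of_eq (by ring)) subset_rfl, fun q hq => ?_, fun b t => ?_,
    fun b t => ?_, m13⟩
  · exact s13 _ (s12 _ (s11 _ (s10 _ (s9 _ (s8 _ (s7 _ (s6 _ (s5 _ (s4 _ (s3 _ (s2 _
      (s1 _ hq))))))))))))
  · exact s13 _ (s12 _ (s11 _ (s10 _ (s9 _ (s8 _ (s7 _ (s6 _ (s5 _ (s4 _ (s3 _ (m2 b t)))))))))))
  · exact s13 _ (s12 _ (s11 _ (m10 b t)))

/-- backward gadget: the target starts on its line, the source ends on the complement of its line -/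
theorem gadget_bwd (d : Design 𝒯 Sd Ce) {Bx : Type} [Fintype Bx] {S T : Set (Lab ι × M)} {r : ℕ}
    (h : Net S r T) (β δ : Bx → Lab ι) (φ : Lab ι) (τ : Bx → 𝒯 → Lab ι) (x y : Bx → 𝒯 → M)
    (a : Bx → Sd → M) (k rb rf : ℕ)
    (hX : ∀ b t, (β b, x b t) ∈ T) (hY : ∀ b t, (β b + τ b t, y b t) ∈ T)
    (hA : ∀ b p, ((0 : Lab ι), a b p) ∈ T)
    (rβ : ∀ b, Rk (β b) rb) (rτ : ∀ b t, Rk (τ b t) 1) (rδ : ∀ b, Rk (δ b) (k + 2))
    (rδτ : ∀ b t, Rk (δ b + τ b t) (k + 1))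
    (rδττ : ∀ b p, Rk (δ b + τ b (d.tgt p) + τ b (d.src p)) k)
    (rφ : ∀ b, Rk (φ + β b + δ b) rf) :
    ∃ T', Net S (r + Fintype.card Bx * (2 * Fintype.card 𝒯 * (k + 1) + Fintype.card Ce * (k + 2) +
        Fintype.card Sd * (rb + (k + 2) + rf))) T' ∧ (∀ q ∈ T, q ∈ T') ∧
      (∀ b t, (β b + δ b + τ b t, x b t) ∈ T') ∧ (∀ b t, (β b + δ b, y b t + x b t) ∈ T') ∧
      ∀ b p, (φ, a b p) ∈ T' := by
  obtain ⟨T1, n1, s1, m1⟩ := h.mv (fun _ _ => 0) (fun b _ => β b) (fun b _ => β b) a rb hA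
    (fun b _ => rβ b) (fun _ _ => zero_add _)
  obtain ⟨T2, n2, s2, m2⟩ := n1.ln (fun b (_ : Sd) => β b) (fun b p => a b p + x b (d.src p))
    (fun b p => Submodule.add_mem _ (Av.of_mem (m1 b p)) (Av.of_mem (s1 _ (hX b _))))
  obtain ⟨T3, n3, s3, m3⟩ := n2.ln (fun b (_ : Ce) => β b) (fun b => d.Gm (x b))
    (fun b i => d.Gm_mem _ _ _ fun t => Av.of_mem (s2 _ (s1 _ (hX b t))))
  obtain ⟨T4, n4, s4, m4⟩ := n3.mv (fun b _ => β b) (fun b p => β b + τ b (d.tgt p))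
    (fun b p => τ b (d.tgt p)) (fun b p => a b p + x b (d.src p)) 1 (fun b p => s3 _ (m2 b p))
    (fun b p => rτ b _) (fun _ _ => rfl)
  obtain ⟨T5, n5, s5, m5⟩ := n4.ln (fun b t => β b + τ b t)
    (fun b t => y b t + d.Jm t (fun p => a b p + x b (d.src p)))
    (fun b t => Submodule.add_mem _ (Av.of_mem (s4 _ (s3 _ (s2 _ (s1 _ (hY b t))))))
      (d.Jm_mem _ _ _ fun p hp => Av.of_mem (hp ▸ m4 b p)))
  obtain ⟨T6, n6, s6, m6⟩ := n5.mv (fun b t => β b + τ b t) (fun b _ => β b + δ b)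
    (fun b t => δ b + τ b t) (fun b t => y b t + d.Jm t (fun p => a b p + x b (d.src p))) (k + 1)
    m5 rδτ (fun b t => by linear_combination (norm := abel) lab_add_self (τ b t))
  obtain ⟨T7, n7, s7, m7⟩ := n6.mv (fun b _ => β b) (fun b _ => β b + δ b) (fun b _ => δ b)
    (fun b => d.Gm (x b)) (k + 2) (fun b i => s6 _ (s5 _ (s4 _ (m3 b i)))) (fun b _ => rδ b)
    (fun _ _ => rfl)
  obtain ⟨T8, n8, s8, m8⟩ := n7.mv (fun b _ => β b) (fun b t => β b + δ b + τ b t)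
    (fun b t => δ b + τ b t) x (k + 1)
    (fun b t => s7 _ (s6 _ (s5 _ (s4 _ (s3 _ (s2 _ (s1 _ (hX b t)))))))) rδτ (fun _ _ => by abel)
  obtain ⟨T9, n9, s9, m9⟩ := n8.mv (fun b p => β b + τ b (d.tgt p))
    (fun b p => β b + δ b + τ b (d.src p)) (fun b p => δ b + τ b (d.tgt p) + τ b (d.src p))
    (fun b p => a b p + x b (d.src p)) k (fun b p => s8 _ (s7 _ (s6 _ (s5 _ (m4 b p))))) rδττ
    (fun b p => by linear_combination (norm := abel) lab_add_self (τ b (d.tgt p)))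
  obtain ⟨T10, n10, s10, m10⟩ := n9.ln (fun b p => β b + δ b + τ b (d.src p)) a
    (fun b p => by
      have e : a b p = (a b p + x b (d.src p)) - x b (d.src p) := by abel
      rw [e]
      exact Submodule.sub_mem _ (Av.of_mem (m9 b p)) (Av.of_mem (s9 _ (m8 b _))))
  obtain ⟨T11, n11, s11, m11⟩ := n10.mv (fun b p => β b + δ b + τ b (d.src p))
    (fun b _ => β b + δ b) (fun b p => τ b (d.src p)) a 1 m10 (fun b p => rτ b _)
    (fun b p => lab_cancel _ _)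
  obtain ⟨T12, n12, s12, m12⟩ := n11.ln (fun b (_ : 𝒯) => β b + δ b) (fun b t => y b t + x b t)
    (fun b t => by
      have e : y b t + x b t = (y b t + d.Jm t (fun p => a b p + x b (d.src p))) +
          d.Rm t (d.Gm (x b)) - d.Jm t (a b) := by
        rw [d.Jm_add, ← d.ident t (x b)]; abel
      rw [e]
      exact Submodule.sub_mem _ (Submodule.add_mem _
        (Av.of_mem (s11 _ (s10 _ (s9 _ (s8 _ (s7 _ (m6 b t)))))))
        (d.Rm_mem _ _ _ fun i => Av.of_mem (s11 _ (s10 _ (s9 _ (s8 _ (m7 b i)))))))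
        (d.Jm_mem _ _ _ fun p _ => Av.of_mem (m11 b p)))
  obtain ⟨T13, n13, s13, m13⟩ := n12.mv (fun b _ => β b + δ b) (fun _ _ => φ)
    (fun b _ => φ + β b + δ b) a rf (fun b p => s12 _ (m11 b p)) (fun b _ => rφ b)
    (fun b _ => by linear_combination (norm := abel) lab_add_self (β b) + lab_add_self (δ b))
  refine ⟨T13, n13.mono (le_of_eq (by ring)) subset_rfl, fun q hq => ?_, fun b t => ?_,
    fun b t => ?_, m13⟩
  · exact s13 _ (s12 _ (s11 _ (s10 _ (s9 _ (s8 _ (s7 _ (s6 _ (s5 _ (s4 _ (s3 _ (s2 _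
      (s1 _ hq))))))))))))
  · exact s13 _ (s12 _ (s11 _ (s10 _ (s9 _ (m8 b t)))))
  · exact s13 _ (m12 b t)

end Crest.Agent.R324
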