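import Crest.Agent.R324.Cost

/-! Tensor products over a finite index, two-point layers and their cost. -/

set_option autoImplicit false

namespace Crest.Agent.R324
open Matrix

/-- tensor product of a finite family of matrices -/
def piKron {κ : Type} [Fintype κ] {I K : κ → Type} (A : ∀ c, Matrix (I c) (K c) ℂ) :
    Matrix (∀ c, I c) (∀ c, K c) ℂ :=
  Matrix.of fun x y => ∏ c, A c (x c) (y c)

theorem piKron_apply {κ : Type} [Fintype κ] {I K : κ → Type} (A : ∀ c, Matrix (I c) (K c) ℂ)
    (x : ∀ c, I c) (y : ∀ c, K c) : piKron A x y = ∏ c, A c (x c) (y c) := rfl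

theorem piKron_mul {κ : Type} [Fintype κ] [DecidableEq κ] {I K L : κ → Type} [∀ c, Fintype (K c)]
    (A : ∀ c, Matrix (I c) (K c) ℂ) (B : ∀ c, Matrix (K c) (L c) ℂ) :
    piKron A * piKron B = piKron fun c => A c * B c := by
  ext x z
  simp only [Matrix.mul_apply, piKron_apply, ← Finset.prod_mul_distrib]
  rw [Fintype.prod_sum]

theorem piKron_sel {κ : Type} [Fintype κ] [DecidableEq κ] {I K : κ → Type} [∀ c, DecidableEq (K c)]
    (f : ∀ c, I c → K c) :
    piKron (fun c => sel (f c)) = sel (fun (x : ∀ c, I c) c => f c (x c)) := by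
  ext x y
  simp only [piKron_apply, sel_apply, Fintype.prod_boole, funext_iff]

theorem piKron_diagonal {κ : Type} [Fintype κ] [DecidableEq κ] {I : κ → Type}
    [∀ c, DecidableEq (I c)] (d : ∀ c, I c → ℂ) :
    piKron (fun c => diagonal (d c)) = diagonal (fun (x : ∀ c, I c) => ∏ c, d c (x c)) := by
  ext x y
  simp only [piKron_apply, diagonal_apply, Fintype.prod_ite_zero, funext_iff]

theorem piKron_one {κ : Type} [Fintype κ] [DecidableEq κ] {I : κ → Type}
    [∀ c, DecidableEq (I c)] : piKron (fun c => (1 : Matrix (I c) (I c) ℂ)) = 1 := by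
  simp only [← diagonal_one, piKron_diagonal]
  simp

/-- the two coefficients of the square root of a swap -/
noncomputable def ca : ℂ := (1 + Complex.I) / 2
/-- the conjugate coefficient -/
noncomputable def cb : ℂ := (1 - Complex.I) / 2

theorem ca_add_cb : ca + cb = 1 := by unfold ca cb; ring

/-- the layer of an involution: `ca` times the identity plus `cb` times the permutation -/
noncomputable def lay {W : Type} [DecidableEq W] (π : W → W) : Matrix W W ℂ := ca • 1 + cb • sel π

theorem lay_apply {W : Type} [DecidableEq W] (π : W → W) (x y : W) :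
    lay π x y = (if x = y then ca else 0) + (if π x = y then cb else 0) := by
  simp [lay, sel_apply, Matrix.one_apply]

/-- the basic two by two matrix -/
noncomputable def C2 : Matrix (ZMod 2) (ZMod 2) ℂ := lay fun t => t + 1

/-- its tensor powers -/
noncomputable def Cpow (κ : Type) [Fintype κ] : Matrix (κ → ZMod 2) (κ → ZMod 2) ℂ :=
  piKron fun _ : κ => C2

/-- tensor powers with at most `L` factors cost at most `σ` per coordinate -/
def Good (L σ : ℕ) : Prop :=
  ∀ (κ : Type) [Fintype κ] [DecidableEq κ], Fintype.card κ ≤ L →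
    Cost (Cpow κ) (2 ^ Fintype.card κ * σ)

theorem Good.mono {L L' σ σ' : ℕ} (h : Good L σ) (hL : L' ≤ L) (hσ : σ ≤ σ') : Good L' σ' :=
  fun κ _ _ hκ => (h κ (hκ.trans hL)).mono (Nat.mul_le_mul_left _ hσ)

theorem good_triv (L : ℕ) : Good L (2 * 2 ^ L) := by
  intro κ _ _ hκ
  refine (Cost.triv _).mono ?_
  simp only [Fintype.card_fun, ZMod.card]
  exact Nat.mul_le_mul_left _ (Nat.mul_le_mul_left _ (Nat.pow_le_pow_right (by norm_num) hκ))

theorem orbit_count {W : Type} [Fintype W] [DecidableEq W] (π : W → W) (hπ : Function.Involutive π)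
    (enc : W → ℕ) (henc : Function.Injective enc) :
    ∑ w : {w // enc w ≤ enc (π w)}, (if π w ≠ w then 2 else 1) ≤ Fintype.card W := by
  rw [← Finset.sum_subtype (Finset.univ.filter fun w => enc w ≤ enc (π w)) (by simp)
    (fun w => if π w ≠ w then 2 else 1)]
  have h1 : ∀ w, (if π w ≠ w then 2 else 1) = 1 + if π w ≠ w then 1 else 0 := by
    intro w; split_ifs <;> rfl
  simp only [h1, Finset.sum_add_distrib, Finset.sum_const, smul_eq_mul, mul_one, Finset.sum_boole,
    Nat.cast_id]
  rw [← Finset.card_univ, ← Finset.card_filter_add_card_filter_not (s := Finset.univ)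
    (fun w => enc w ≤ enc (π w))]
  refine Nat.add_le_add_left ?_ _
  refine Finset.card_le_card_of_injOn π ?_ (hπ.injective.injOn)
  intro w hw
  simp only [Finset.coe_filter, Finset.mem_filter, Finset.mem_univ, true_and, Set.mem_ofPred_eq,
    ne_eq, not_le] at hw ⊢
  rw [hπ w]
  exact lt_of_le_of_ne hw.1 fun h => hw.2 (henc h).symm

theorem zmod2_cases (t : ZMod 2) : t = 0 ∨ t = 1 := by
  revert t; decide

theorem sum_zmod2 (f : ZMod 2 → ℂ) : ∑ t, f t = f 0 + f 1 := by
  have : (Finset.univ : Finset (ZMod 2)) = {0, 1} := by decide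
  rw [this, Finset.sum_pair (by decide)]

theorem C2_00 : C2 0 0 = ca := by
  have : ¬ ((0 : ZMod 2) + 1 = 0) := by decide
  simp [C2, lay_apply]
theorem C2_01 : C2 0 1 = cb := by
  simp [C2, lay_apply]
theorem C2_10 : C2 1 0 = cb := by
  have : ((1 : ZMod 2) + 1 = 0) := by decide
  simp [C2, lay_apply, this]
theorem C2_11 : C2 1 1 = ca := by
  simp [C2, lay_apply]

theorem cost_piKron_lay {L σ : ℕ} (hG : Good L σ) {κ : Type} [Fintype κ] [DecidableEq κ]
    (hκ : Fintype.card κ ≤ L) {W : κ → Type} [∀ c, Fintype (W c)] [∀ c, DecidableEq (W c)]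
    (π : ∀ c, W c → W c) (hπ : ∀ c, Function.Involutive (π c)) :
    Cost (piKron fun c => lay (π c)) ((∏ c, Fintype.card (W c)) * σ) := by
  let enc : ∀ c, W c → ℕ := fun c w => (Fintype.equivFin (W c) w : ℕ)
  have henc : ∀ c, Function.Injective (enc c) := fun c =>
    Fin.val_injective.comp (Fintype.equivFin (W c)).injective
  let P := ∀ c, {w : W c // enc c w ≤ enc c (π c w)}
  let act : P → κ → Prop := fun p c => π c (p c) ≠ p c
  let g : ∀ (p : P) (c : κ), ZMod 2 → W c := fun p c t => if t = 0 then p c else π c (p c)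
  let f : ∀ p : P, ({c // act p c} → ZMod 2) → ∀ c, W c := fun p s c =>
    if h : act p c then g p c (s ⟨c, h⟩) else p c
  have h := Cost.blocks (A := piKron fun c => lay (π c)) (P := P)
    (fun p => Cpow {c // act p c}) f (fun p => 2 ^ Fintype.card {c // act p c} * σ)
    (fun p => hG _ ((Fintype.card_subtype_le _).trans hκ)) (by
      intro x
      let p : P := fun c => if h : enc c (x c) ≤ enc c (π c (x c)) then ⟨x c, h⟩
        else ⟨π c (x c), by rw [hπ c]; omega⟩
      have hp : ∀ c, x c = p c ∨ x c = π c (p c) := by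
        intro c
        by_cases h : enc c (x c) ≤ enc c (π c (x c))
        · left; simp [p, h]
        · right; simp [p, h, hπ c (x c)]
      refine ⟨p, fun c => if x c = p c then 0 else 1, ?_⟩
      ext y
      have h1 : ∀ s : {c // act p c} → ZMod 2, sel (f p) s y =
          (∏ c : {c // act p c}, if g p c (s c) = y c then (1 : ℂ) else 0) *
          ∏ c : {c // ¬ act p c}, if (p c : W c) = y c then (1 : ℂ) else 0 := by
        intro s
        have : sel (f p) s y = ∏ c, if f p s c = y c then (1 : ℂ) else 0 := by
          simp only [sel_apply, Fintype.prod_boole, funext_iff]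
        rw [this, ← Fintype.prod_subtype_mul_prod_subtype (act p)]
        congr 1
        · refine Finset.prod_congr rfl fun c _ => ?_
          simp only [f, dif_pos c.2]
        · refine Finset.prod_congr rfl fun c _ => ?_
          simp only [f, dif_neg c.2]
      simp only [Matrix.mul_apply, h1, Cpow, piKron_apply, ← mul_assoc, ← Finset.sum_mul,
        ← Finset.prod_mul_distrib]
      rw [← Fintype.prod_sum (fun (c : {c // act p c}) (t : ZMod 2) =>
        C2 (if x c = p c then 0 else 1) t * if g p c t = y c then (1 : ℂ) else 0),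
        ← Fintype.prod_subtype_mul_prod_subtype (act p)]
      congr 1
      · refine Finset.prod_congr rfl fun c _ => ?_
        have hc : π c (p c) ≠ p c := c.2
        rw [sum_zmod2, lay_apply]
        simp only [g, if_true, one_ne_zero, if_false]
        rcases hp c with h | h
        · rw [if_pos h, C2_00, C2_01, h]
          simp
        · have hne : ¬ x c = p c := by rw [h]; exact hc
          rw [if_neg hne, C2_10, C2_11, h, hπ c]
          simp only [mul_ite, mul_one, mul_zero]
          exact add_comm _ _
      · refine Finset.prod_congr rfl fun c _ => ?_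
        have hc : π c (p c) = p c := not_not.mp c.2
        have hx : x c = p c := by
          rcases hp c with h | h
          · exact h
          · rw [h, hc]
        rw [lay_apply, hx, hc]
        split_ifs <;> simp [ca_add_cb])
  refine h.mono ?_
  rw [← Finset.sum_mul]
  refine Nat.mul_le_mul_right _ ?_
  have h2 : ∀ p : P, 2 ^ Fintype.card {c // act p c} =
      ∏ c, if π c (p c) ≠ p c then 2 else 1 := by
    intro p
    rw [Finset.prod_ite, Finset.prod_const, Finset.prod_const, one_pow, mul_one, Fintype.card_subtype]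
  simp only [h2]
  rw [← Fintype.prod_sum (fun (c : κ) (w : {w : W c // enc c w ≤ enc c (π c w)}) =>
    if π c w ≠ w then 2 else 1)]
  exact Finset.prod_le_prod' fun c _ => orbit_count (π c) (hπ c) (enc c) (henc c)

end Crest.Agent.R324
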