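import Crest.Agent.R324.DFT

/-! Six copies of a Fourier transform of order `q` in place in depth `O(log q)`. -/

set_option autoImplicit false
set_option linter.unusedSectionVars false
set_option linter.unusedSimpArgs false

namespace Crest.Agent.R324
open Matrix Kronecker

theorem ex_half : ex (1 / 2) = -1 := by
  rw [ex, ← Complex.exp_pi_mul_I]; congr 1; ring

theorem dep_Fz_two : Dep 1 (Fz 2) := by
  have hl := DepF.lay (W := ZMod 2) (· + 1) (fun b => by revert b; decide)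
  refine (((DepF.mon (fun b => if b = 0 then ca⁻¹ else ca⁻¹ * Complex.I) id).comp hl).comp
    (DepF.mon (fun b => if b = 0 then 1 else Complex.I) id)).dep fun v => ?_
  have hb := cb_ne_zero
  have hI := Complex.I_ne_zero
  have hI2 : Complex.I ^ 2 = -1 := Complex.I_sq
  have h11 : (1 : ZMod 2) + 1 = 0 := by decide
  have f00 : Fz 2 0 0 = 1 := by simp [Fz]
  have f01 : Fz 2 0 1 = 1 := by simp [Fz]
  have f10 : Fz 2 1 0 = 1 := by simp [Fz]
  have f11 : Fz 2 1 1 = -1 := by
    rw [← ex_half]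
    simpa using Fz_nat (N := 2) 1 1
  ext b
  rcases zmod2_cases b with rfl | rfl
  · simp [Matrix.mulVec, dotProduct, sum_zmod2, ca_eq, f00, f01]
    field_simp
    grind
  · simp [Matrix.mulVec, dotProduct, sum_zmod2, ca_eq, h11, f10, f11]
    field_simp
    grind

theorem dep_Fz_pow (s : ℕ) : ∀ (N : ℕ) [NeZero N], N = 2 ^ s → Dep s (Fz N) := by
  induction s with
  | zero =>
    intro N _ hN
    obtain rfl : N = 1 := hN
    have : Fz 1 = diagonal fun j => Fz 1 j j := by
      ext j k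
      obtain rfl := Subsingleton.elim j k
      simp
    rw [this]; exact Dep.diag _
  | succ s ih =>
    intro N _ hN
    obtain rfl : N = 2 ^ s * 2 := hN
    obtain ⟨e₁, e₂, tw, h⟩ := cooley_tukey (2 ^ s) 2
    rw [h]
    exact (((ih _ rfl).kron_one.mul (Dep.diag tw)).mul dep_Fz_two.one_kron).submatrix e₁ e₂

theorem dep_Fi {N D : ℕ} [NeZero N] (h : Dep D (Fz N)) : Dep D (Fi N) :=
  Dep.mon_mul ⟨_, _, rfl⟩ h

section three
variable {X Z : Type} [Fintype X] [DecidableEq X] [Fintype Z] [DecidableEq Z]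

/-- three registers -/
abbrev Reg (X Z : Type) := (X → ℂ) × (X → ℂ) × (Z → ℂ)

/-- a vector as three registers -/
def toReg (v : X ⊕ X ⊕ Z → ℂ) : Reg X Z :=
  (fun j => v (.inl j), fun j => v (.inr (.inl j)), fun j => v (.inr (.inr j)))

/-- three registers as a vector -/
def ofReg (r : Reg X Z) : X ⊕ X ⊕ Z → ℂ := Sum.elim r.1 (Sum.elim r.2.1 r.2.2)

theorem toReg_ofReg (r : Reg X Z) : toReg (ofReg r) = r := rfl

/-- depth of a map on three registers -/
def Dep3 (D : ℕ) (F : Reg X Z → Reg X Z) : Prop := DepF D fun v => ofReg (F (toReg v))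

theorem Dep3.comp {D D' : ℕ} {F G : Reg X Z → Reg X Z} (hG : Dep3 D G) (hF : Dep3 D' F) :
    Dep3 (D + D') fun r => F (G r) :=
  (DepF.comp hF hG).congr (fun _ => rfl) (by omega)

theorem Dep3.congr {D D' : ℕ} {F G : Reg X Z → Reg X Z} (hF : Dep3 D F) (h : ∀ r, F r = G r)
    (hD : D ≤ D') : Dep3 D' G :=
  DepF.congr hF (fun v => by rw [h]) hD

theorem Dep3.onZ {D : ℕ} {G : Matrix Z Z ℂ} (h : Dep D G) :
    Dep3 (X := X) D fun r => (r.1, r.2.1, G *ᵥ r.2.2) := by
  have he : Function.Injective fun p : Unit × Z => (Sum.inr (Sum.inr p.2) : X ⊕ X ⊕ Z) := by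
    rintro ⟨_, a⟩ ⟨_, b⟩ h
    simpa using h
  refine (DepF.pext he fun _ => h.depF).congr (fun v => ?_) le_rfl
  ext w
  rcases w with j | j | j
  · rw [pext_apply' _ _ _ (by simp)]; rfl
  · rw [pext_apply' _ _ _ (by simp)]; rfl
  · exact pext_apply he _ v () j

theorem Dep3.inj (e : X → Z) (he : Function.Injective e) (d : X → ℂ) :
    Dep3 3 fun r : Reg X Z => (r.1, r.2.1, r.2.2 + ((sel e)ᵀ * diagonal d) *ᵥ r.1) := by
  have he' : Function.Injective fun p : X × Bool =>
      (if p.2 then Sum.inl p.1 else Sum.inr (Sum.inr (e p.1)) : X ⊕ X ⊕ Z) := by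
    rintro ⟨a, _ | _⟩ ⟨b, _ | _⟩ h <;> simp_all [he.eq_iff]
  refine (DepF.pext he' fun j => depF_shear2 (d j)).congr (fun v => ?_) le_rfl
  ext w
  rcases w with j | j | j
  · exact pext_apply he' _ v j true
  · rw [pext_apply' _ _ _ (by simp)]; rfl
  · by_cases hj : ∃ i, e i = j
    · obtain ⟨i, rfl⟩ := hj
      refine (pext_apply he' _ v i false).trans ?_
      simp [ofReg, toReg, ← Matrix.mulVec_mulVec, Matrix.mulVec, dotProduct, sel_apply, he.eq_iff,
        Matrix.mul_diagonal, Matrix.diagonal_apply]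
    · rw [pext_apply' _ _ _ (by simpa using hj)]
      push Not at hj
      simp [ofReg, toReg, ← Matrix.mulVec_mulVec, Matrix.mulVec, dotProduct, sel_apply, hj,
        Matrix.mul_diagonal]

theorem Dep3.prj (e : X → Z) (he : Function.Injective e) (d : X → ℂ) :
    Dep3 3 fun r : Reg X Z => (r.1, r.2.1 + (diagonal d * sel e) *ᵥ r.2.2, r.2.2) := by
  have he' : Function.Injective fun p : X × Bool =>
      (if p.2 then Sum.inr (Sum.inr (e p.1)) else Sum.inr (Sum.inl p.1) : X ⊕ X ⊕ Z) := by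
    rintro ⟨a, _ | _⟩ ⟨b, _ | _⟩ h <;> simp_all [he.eq_iff]
  refine (DepF.pext he' fun j => depF_shear2 (d j)).congr (fun v => ?_) le_rfl
  ext w
  rcases w with j | j | j
  · rw [pext_apply' _ _ _ (by simp)]; rfl
  · refine (pext_apply he' _ v j false).trans ?_
    simp [ofReg, toReg, ← Matrix.mulVec_mulVec, sel_mulVec, Matrix.mulVec_diagonal]
  · by_cases hj : ∃ i, e i = j
    · obtain ⟨i, rfl⟩ := hj
      exact pext_apply he' _ v i true
    · rw [pext_apply' _ _ _ (by simpa using hj)]; rfl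

theorem Dep3.swap (a : ℂ) (σ : X → X) :
    Dep3 0 fun r : Reg X Z => (r.2.1, fun j => a * r.1 (σ j), r.2.2) := by
  refine (DepF.mon (Sum.elim (fun _ => 1) (Sum.elim (fun _ => a) fun _ => 1))
    (Sum.elim (fun j => .inr (.inl j)) (Sum.elim (fun j => .inl (σ j)) fun j => .inr (.inr j)))).congr
    (fun v => ?_) le_rfl
  ext w
  rcases w with j | j | j <;> simp [ofReg, toReg]

/-- the shear `y += M x` with an arbitrary third register restored -/
def Sh (Z : Type) [Fintype Z] [DecidableEq Z] (D : ℕ) (M : Matrix X X ℂ) : Prop :=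
  Dep3 D fun r : Reg X Z => (r.1, r.2.1 + M *ᵥ r.1, r.2.2)

theorem Sh.add {D D' : ℕ} {M M' : Matrix X X ℂ} (h : Sh Z D M) (h' : Sh Z D' M') :
    Sh Z (D + D') (M + M') :=
  (Dep3.comp h h').congr (fun r => by simp [Matrix.add_mulVec, add_assoc]) le_rfl

theorem Sh.dirty {D : ℕ} {G G' : Matrix Z Z ℂ} (hG : Dep D G) (hG' : Dep D G') (hGG : G' * G = 1)
    (e e' : X → Z) (he : Function.Injective e) (he' : Function.Injective e') (d d' : X → ℂ) :
    Sh Z (4 * D + 12) (diagonal d' * sel e' * G * ((sel e)ᵀ * diagonal d)) := by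
  refine ((((((((Dep3.onZ hG).comp (Dep3.prj e' he' (-d'))).comp (Dep3.onZ hG')).comp
    (Dep3.inj e he d)).comp (Dep3.onZ hG)).comp (Dep3.prj e' he' d')).comp (Dep3.onZ hG')).comp
    (Dep3.inj e he (-d))).congr (fun r => ?_) (by omega)
  have h1 : ∀ z, G' *ᵥ (G *ᵥ z) = z := fun z => by
    rw [Matrix.mulVec_mulVec, hGG, Matrix.one_mulVec]
  have h2 : ∀ d : X → ℂ, diagonal (-d) = -diagonal d := fun d => by
    rw [Matrix.diagonal_neg]; rfl
  simp only [h1, h2, Matrix.neg_mul, Matrix.mul_neg, Matrix.neg_mulVec, Matrix.mulVec_add,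
    ← Matrix.mulVec_mulVec]
  refine Prod.ext rfl (Prod.ext ?_ ?_) <;> simp only <;> abel

theorem Dep3.of_sh {D : ℕ} {M M' : Matrix X X ℂ} (h : Sh Z D M) (h' : Sh Z D (-M'))
    (h1 : M' * M = 1) (h2 : M * M' = 1) :
    Dep3 (3 * D) fun r : Reg X Z => (-(M' *ᵥ r.2.1), M *ᵥ r.1, r.2.2) := by
  refine ((((Dep3.comp h (Dep3.swap 1 id)).comp h').comp (Dep3.swap 1 id)).comp h).congr
    (fun r => ?_) (by omega)
  have h3 : ∀ z, M' *ᵥ (M *ᵥ z) = z := fun z => by
    rw [Matrix.mulVec_mulVec, h1, Matrix.one_mulVec]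
  have h4 : ∀ z, M *ᵥ (M' *ᵥ z) = z := fun z => by
    rw [Matrix.mulVec_mulVec, h2, Matrix.one_mulVec]
  simp only [one_mul, id, Matrix.neg_mulVec, Matrix.mulVec_add, Matrix.mulVec_neg, h3, h4]
  refine Prod.ext ?_ (Prod.ext ?_ rfl) <;> simp only
  · abel
  · ext j; simp

end three

theorem sandwich_apply {X Z : Type} [Fintype X] [DecidableEq X] [Fintype Z] [DecidableEq Z]
    (G : Matrix Z Z ℂ) (e e' : X → Z) (d d' : X → ℂ) (x y : X) :
    (diagonal d' * sel e' * G * ((sel e)ᵀ * diagonal d)) x y = d' x * G (e' x) (e y) * d y := by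
  rw [← Matrix.mul_assoc, Matrix.mul_diagonal, Matrix.mul_assoc, Matrix.mul_assoc,
    Matrix.diagonal_mul, sel_mul]
  simp [Matrix.mul_apply, sel_apply]

theorem sh_hankel {X : Type} [Fintype X] [DecidableEq X] {K D : ℕ} [NeZero K] (hK : Dep D (Fz K))
    (c : ZMod K → ℂ) (e e' : X → ZMod K) (he : Function.Injective e) (he' : Function.Injective e')
    (d d' : X → ℂ) :
    Sh (ZMod K) (16 * D + 24)
      (diagonal d' * sel e' * (Fz K * diagonal c * Fz K) * ((sel e)ᵀ * diagonal d)) := by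
  have key : ∀ c : ZMod K → ℂ, (∀ t, c t ≠ 0) → Sh (ZMod K) (4 * (D + D) + 12)
      (diagonal d' * sel e' * (Fz K * diagonal c * Fz K) * ((sel e)ᵀ * diagonal d)) := by
    intro c hc
    refine Sh.dirty (G' := Fi K * diagonal (fun t => (c t)⁻¹) * Fi K)
      ((hK.mul (Dep.diag c)).mul hK) (((dep_Fi hK).mul (Dep.diag _)).mul (dep_Fi hK)) ?_ e e' he he'
      d d'
    have : diagonal (fun t => (c t)⁻¹) * diagonal c = 1 := by
      rw [diagonal_mul_diagonal, ← diagonal_one]
      congr 1; ext t; exact inv_mul_cancel₀ (hc t)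
    simp only [Matrix.mul_assoc]
    rw [← Matrix.mul_assoc (Fi K) (Fz K), Fi_mul, Matrix.one_mul, ← Matrix.mul_assoc (diagonal _),
      this, Matrix.one_mul, Fi_mul]
  have h := (key (fun t => if c t = 1 then 2 else c t - 1) fun t => by
    split_ifs with h
    · norm_num
    · exact sub_ne_zero.mpr h).add (key (fun t => if c t = 1 then -1 else 1) fun t => by
    split_ifs <;> norm_num)
  rw [← Matrix.add_mul, ← Matrix.mul_add, ← Matrix.add_mul, ← Matrix.mul_add, diagonal_add] at h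
  have e1 : (fun t => (if c t = 1 then 2 else c t - 1) + if c t = 1 then -1 else 1) = c := by
    ext t
    split_ifs with h
    · rw [h]; norm_num
    · ring
  rw [e1] at h
  exact Dep3.congr h (fun _ => rfl) (by omega)

theorem dep3_pair (q s : ℕ) [NeZero q] (hs : 2 * q ≤ 2 ^ s) :
    Dep3 (48 * s + 72) fun r : Reg (ZMod q) (ZMod (2 ^ s)) => (Fz q *ᵥ r.1, Fz q *ᵥ r.2.1, r.2.2) := by
  obtain ⟨d, c, h⟩ := chirp (N := 2 ^ s) (ex (1 / q)) (ex_ne_zero _) (fun j : ZMod q => j.val)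
    fun x y => by
      have := ZMod.val_lt x
      have := ZMod.val_lt y
      omega
  have he : Function.Injective fun j : ZMod q => (j.val : ZMod (2 ^ s)) := by
    intro x y h
    have h1 := congrArg ZMod.val h
    have := ZMod.val_lt x
    have := ZMod.val_lt y
    simp only [ZMod.val_natCast] at h1
    rw [Nat.mod_eq_of_lt (by omega), Nat.mod_eq_of_lt (by omega)] at h1
    exact ZMod.val_injective _ h1
  have hF : ∀ x y, Fz q x y = d x * (Fz (2 ^ s) * diagonal c * Fz (2 ^ s)) x.val y.val * d y := by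
    intro x y
    rw [← h, ex_pow, Fz_val]
    congr 1; push_cast; ring
  have h1 := sh_hankel (dep_Fz_pow s _ rfl) c _ _ he he d d
  have h2 := sh_hankel (dep_Fz_pow s _ rfl) c _ (fun j : ZMod q => ((-j).val : ZMod (2 ^ s))) he
    (he.comp neg_injective) d
    (fun j => -(q : ℂ)⁻¹ * d (-j))
  have e1 : ∀ A, (∀ x y, A x y = d x * (Fz (2 ^ s) * diagonal c * Fz (2 ^ s)) x.val y.val * d y) →
      A = Fz q := fun A hA => by ext x y; rw [hA, hF]
  have e2 : ∀ A : Matrix (ZMod q) (ZMod q) ℂ, (∀ x y, A x y = -(q : ℂ)⁻¹ * d (-x) *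
      (Fz (2 ^ s) * diagonal c * Fz (2 ^ s)) (-x).val y.val * d y) → A = -Fi q := fun A hA => by
    ext x y
    rw [hA, Matrix.neg_apply, Fi, Matrix.mul_assoc _ _ (Fz q), Matrix.diagonal_mul, sel_mul,
      Matrix.submatrix_apply, hF]
    simp only [id]; ring
  rw [e1 _ (sandwich_apply _ _ _ _ _)] at h1
  rw [e2 _ (sandwich_apply _ _ _ _ _)] at h2
  refine ((Dep3.of_sh h1 h2 Fi_mul mul_Fi).comp (Dep3.swap (-q) fun j => -j)).congr (fun r => ?_)
    (by omega)
  refine Prod.ext rfl (Prod.ext ?_ rfl)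
  ext j
  have hq : (q : ℂ) ≠ 0 := by exact_mod_cast NeZero.ne q
  simp [Fi_mulVec, hq]

theorem dep_six {X Z : Type} [Fintype X] [DecidableEq X] [Fintype Z] [DecidableEq Z] {D : ℕ}
    {F : Matrix X X ℂ} (hZ : Fintype.card Z ≤ 4 * Fintype.card X)
    (h : Dep3 D fun r : Reg X Z => (F *ᵥ r.1, F *ᵥ r.2.1, r.2.2)) :
    Dep (3 * D) ((1 : Matrix (Fin 3 × Bool) (Fin 3 × Bool) ℂ) ⊗ₖ F) := by
  have key : ∀ r : Fin 3, DepF D fun (v : (Fin 3 × Bool) × X → ℂ) p =>
      if p.1.1 = r then (F *ᵥ fun j => v (p.1, j)) p.2 else v p := by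
    intro r
    obtain ⟨g⟩ : Nonempty (Z ↪ ({t : Fin 3 // t ≠ r} × Bool) × X) :=
      Function.Embedding.nonempty_of_card_le (by simpa using hZ)
    have he : Function.Injective fun p : Unit × (X ⊕ X ⊕ Z) =>
        (Sum.elim (fun j => ((r, false), j)) (Sum.elim (fun j => ((r, true), j))
          fun z => (((g z).1.1.1, (g z).1.2), (g z).2)) p.2 : (Fin 3 × Bool) × X) := by
      rintro ⟨_, a | a | a⟩ ⟨_, b | b | b⟩ h <;>
        simp only [Sum.elim_inl, Sum.elim_inr, Prod.mk.injEq] at h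
      · simp [h.2]
      · simp at h
      · exact absurd h.1.1.symm (g b).1.1.2
      · simp at h
      · simp [h.2]
      · exact absurd h.1.1.symm (g b).1.1.2
      · exact absurd h.1.1 (g a).1.1.2
      · exact absurd h.1.1 (g a).1.1.2
      · have : g a = g b := Prod.ext (Prod.ext (Subtype.ext h.1.1) h.1.2) h.2
        simp [g.injective this]
    refine (DepF.pext he fun _ => h).congr (fun v => ?_) le_rfl
    ext ⟨⟨t, b⟩, j⟩
    by_cases ht : t = r
    · subst ht
      rw [if_pos rfl]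
      cases b
      · exact pext_apply he _ v () (.inl j)
      · exact pext_apply he _ v () (.inr (.inl j))
    · rw [if_neg ht]
      by_cases hw : ∃ z, (((g z).1.1.1, (g z).1.2), (g z).2) = ((t, b), j)
      · obtain ⟨z, hz⟩ := hw
        rw [← hz]
        exact pext_apply he _ v () (.inr (.inr z))
      · refine pext_apply' _ _ _ ?_
        rintro ⟨⟨_, a | a | a⟩, ha⟩
        · exact ht (congrArg (·.1.1) ha).symm
        · exact ht (congrArg (·.1.1) ha).symm
        · exact hw ⟨a, ha⟩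
  refine (((key 0).comp (key 1)).comp (key 2)).dep (fun v => ?_) |>.le (by omega)
  ext ⟨⟨t, b⟩, j⟩
  have : (((1 : Matrix (Fin 3 × Bool) (Fin 3 × Bool) ℂ) ⊗ₖ F) *ᵥ v) ((t, b), j) =
      (F *ᵥ fun j => v ((t, b), j)) j := by
    rw [Matrix.mulVec, dotProduct, Fintype.sum_prod_type]
    simp [Matrix.mulVec, dotProduct, Matrix.one_apply]
  rw [this]
  fin_cases t <;> simp

theorem dep_Fz_six (q : ℕ) [NeZero q] :
    Dep (144 * Nat.clog 2 (2 * q) + 216) ((1 : Matrix (Fin 3 × Bool) (Fin 3 × Bool) ℂ) ⊗ₖ Fz q) := by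
  have hq := NeZero.pos q
  refine (dep_six ?_ (dep3_pair q (Nat.clog 2 (2 * q)) (Nat.le_pow_clog (by norm_num) _))).le
    (by omega)
  simp only [ZMod.card]
  have h1 := Nat.pow_pred_clog_lt_self (b := 2) (by norm_num) (x := 2 * q) (by omega)
  have h2 : 0 < Nat.clog 2 (2 * q) := Nat.clog_pos (by norm_num) (by omega)
  obtain ⟨t, ht⟩ : ∃ t, Nat.clog 2 (2 * q) = t + 1 := ⟨_, (Nat.succ_pred_eq_of_pos h2).symm⟩
  rw [ht] at h1 ⊢
  simp only [Nat.pred_succ] at h1
  rw [pow_succ]; omega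

end Crest.Agent.R324
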